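import Vale.Agent.P057.Digits

/-!
The optimisation of the number of digits: one lifting step raises the exponent index by one and
multiplies the constant inside the root by twice the logarithm of the digit loss.
-/

namespace P057

open Finset Filter Real

/-- Sets with property `Q` inside an interval of length `T` of size at least
`T exp (- c (log T) ^ (1 / r))`, for every `c` above `r X ^ (1 / r)`. -/
def Has (Q : Finset ℤ → Prop) (X : ℝ) (r : ℕ) : Prop :=
  ∀ c : ℝ, (r : ℝ) * X ^ ((r : ℝ)⁻¹) < c → ∀ᶠ T : ℕ in atTop, ∃ S : Finset ℤ,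
    S ⊆ Finset.Ico (0 : ℤ) T ∧ Q S ∧
      (T : ℝ) * Real.exp (-c * Real.log T ^ ((r : ℝ)⁻¹)) ≤ S.card

lemma has_singleton : Has (fun R => R = {0}) 1 1 := by
  intro c hc
  filter_upwards [eventually_ge_atTop 1] with T hT
  refine ⟨{0}, by simp only [Finset.singleton_subset_iff, Finset.mem_Ico]; omega, rfl, ?_⟩
  have h1 : (1 : ℝ) ≤ T := by exact_mod_cast hT
  have hlog := Real.log_nonneg h1
  simp only [Nat.cast_one, inv_one, Real.rpow_one, mul_one] at hc
  simp only [Nat.cast_one, inv_one, Real.rpow_one, Finset.card_singleton]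
  calc (T : ℝ) * Real.exp (-c * Real.log T) = Real.exp (Real.log T + -c * Real.log T) := by
        rw [Real.exp_add, Real.exp_log (by linarith)]
    _ ≤ 1 := Real.exp_le_one_iff.2 (by nlinarith)

lemma exists_eps {w X : ℝ} (hw : 0 < w) (hX : 0 < X) {r : ℕ} (hr : 1 ≤ r) {c' : ℝ}
    (hc' : ((r + 1 : ℕ) : ℝ) * (2 * w * X) ^ (((r + 1 : ℕ) : ℝ)⁻¹) < c') :
    ∃ a ε : ℝ, 0 < a ∧ 0 < ε ∧
      a * (w + ε) + ((r : ℝ) * X ^ ((r : ℝ)⁻¹) + ε) * ((2 + ε) / a) ^ ((r : ℝ)⁻¹) < c' := by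
  set Z := (2 * w * X) ^ (((r + 1 : ℕ) : ℝ)⁻¹) with hZdef
  have hpos : 0 < 2 * w * X := by positivity
  have hZ : 0 < Z := Real.rpow_pos_of_pos hpos _
  have hZp : Z ^ (r + 1) = 2 * w * X := Real.rpow_inv_natCast_pow hpos.le (by omega)
  set a := Z / w with hadef
  have ha : 0 < a := div_pos hZ hw
  let F : ℝ → ℝ := fun ε =>
    a * (w + ε) + ((r : ℝ) * X ^ ((r : ℝ)⁻¹) + ε) * ((2 + ε) / a) ^ ((r : ℝ)⁻¹)
  have hF0 : F 0 = ((r + 1 : ℕ) : ℝ) * Z := by
    have e1 : X ^ ((r : ℝ)⁻¹) * (2 / a) ^ ((r : ℝ)⁻¹) = Z := by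
      rw [← Real.mul_rpow hX.le (by positivity)]
      have : X * (2 / a) = Z ^ r := by
        rw [hadef]
        field_simp
        rw [pow_succ'] at hZp
        linarith
      rw [this, Real.pow_rpow_inv_natCast hZ.le (by omega)]
    have e2 : a * w = Z := by rw [hadef]; field_simp
    simp only [F, add_zero]
    rw [mul_assoc, e1, e2]
    push_cast
    ring
  have hcont : ContinuousAt F 0 := by
    have hne : (2 + (0 : ℝ)) / a ≠ 0 := by positivity
    refine ContinuousAt.add (by fun_prop) (ContinuousAt.mul (by fun_prop) ?_)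
    exact ContinuousAt.rpow_const (by fun_prop) (Or.inl hne)
  have hev : ∀ᶠ ε in nhds (0 : ℝ), F ε < c' := hcont.eventually (Iio_mem_nhds (by rw [hF0]; exact hc'))
  obtain ⟨ε, hε, hε'⟩ :=
    ((hev.filter_mono nhdsWithin_le_nhds).and (self_mem_nhdsWithin (s := Set.Ioi (0 : ℝ)))).exists
  exact ⟨a, ε, ha, hε', hε⟩

lemma ratio_bound {P q : ℕ} (hP : 1 ≤ P) {ε : ℝ} (hε : 0 < ε)
    (hq : (P : ℝ) / (1 - Real.exp (-ε)) ≤ q) :
    Real.exp (-(Real.log P + ε)) * q ≤ (q / P : ℕ) := by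
  have hP' : (0 : ℝ) < P := by exact_mod_cast hP
  have he : Real.exp (-ε) < 1 := Real.exp_lt_one_iff.2 (by linarith)
  rw [div_le_iff₀ (by linarith)] at hq
  have h1 : (q : ℝ) ≤ (P : ℝ) * (q / P : ℕ) + P := by
    have h2 := Nat.div_add_mod q P
    have h3 := Nat.mod_lt q (show 0 < P by omega)
    have h4 : q ≤ P * (q / P) + P := by omega
    exact_mod_cast h4
  rw [neg_add, Real.exp_add, Real.exp_neg (Real.log P), Real.exp_log hP', mul_assoc,
    inv_mul_le_iff₀ hP']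
  nlinarith

lemma log_lin {x δ : ℝ} (hx : 0 < x) (hδ : 0 < δ) :
    Real.log x ≤ δ * x - Real.log δ := by
  have h1 := Real.log_le_sub_one_of_pos (mul_pos hδ hx)
  rw [Real.log_mul hδ.ne' hx.ne'] at h1
  linarith

lemma log_range_bound {a ε u L lB : ℝ} (ha : 0 < a) (hε : 0 < ε) {r : ℕ} (hr : 1 ≤ r)
    (hu : 1 ≤ u) (hLu : L = u ^ (r + 1)) (hL0 : 0 ≤ L) (hlB : 0 ≤ lB) {D q : ℕ} (hD : 1 ≤ D)
    (hD1 : a * u ≤ D) (hD2 : (D : ℝ) ≤ a * u + 1) (hq : 0 < q)
    (hq2 : (q : ℝ) ≤ 2 * Real.exp ((L + lB) / D))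
    (hK : (2 * (ε / (4 * a ^ 2)) - Real.log (ε / (4 * a ^ 2)) + 2 * Real.log 2 + 2 * lB) * (2 * a)
      ≤ u * ε    ) : Real.log ((D * q ^ 2 + 1 : ℕ) : ℝ) ≤ (2 + ε) / a * u ^ r := by
  have hq0 : (0 : ℝ) < q := by exact_mod_cast hq
  have hD0 : (0 : ℝ) < D := by exact_mod_cast hD
  have h1 : ((D * q ^ 2 + 1 : ℕ) : ℝ) ≤ 2 * (D : ℝ) * (q : ℝ) ^ 2 := by
    push_cast
    have h1' : (1 : ℝ) ≤ (D : ℝ) * (q : ℝ) ^ 2 := by
      exact_mod_cast Nat.one_le_iff_ne_zero.2 (by positivity : D * q ^ 2 ≠ 0)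
    linarith
  have h2 : Real.log ((D * q ^ 2 + 1 : ℕ) : ℝ) ≤ Real.log (2 * D) + 2 * Real.log q := by
    refine le_trans (Real.log_le_log (by positivity) h1) (le_of_eq ?_)
    rw [Real.log_mul (by positivity) (by positivity), Real.log_pow]
    norm_num
  have h3 : Real.log q ≤ Real.log 2 + (L + lB) / D := by
    refine le_trans (Real.log_le_log hq0 hq2) (le_of_eq ?_)
    rw [Real.log_mul (by norm_num) (Real.exp_pos _).ne', Real.log_exp]
  have hδ : 0 < ε / (4 * a ^ 2) := by positivity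
  have h4 : Real.log (2 * D) ≤
      ε / (4 * a ^ 2) * (2 * (a * u + 1)) - Real.log (ε / (4 * a ^ 2)) :=
    le_trans (Real.log_le_log (by positivity) (by linarith)) (log_lin (by positivity) hδ)
  have h5 : (L + lB) / D ≤ u ^ r / a + lB := by
    rw [add_div]
    refine add_le_add ?_ (div_le_self hlB (by exact_mod_cast hD))
    calc L / D ≤ L / (a * u) := div_le_div_of_nonneg_left hL0 (by positivity) hD1
      _ = u ^ r / a := by rw [hLu, pow_succ]; field_simp
  have h6 : ε / (4 * a ^ 2) * (2 * (a * u + 1))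
      = ε / (2 * a) * u + 2 * (ε / (4 * a ^ 2)) := by
    field_simp; ring
  have h7 : 2 * (ε / (4 * a ^ 2)) - Real.log (ε / (4 * a ^ 2)) + 2 * Real.log 2 + 2 * lB
      ≤ ε / (2 * a) * u := by
    rw [div_mul_eq_mul_div, le_div_iff₀ (by positivity)]
    linarith
  have h8 : u ≤ u ^ r := le_self_pow₀ hu (by omega)
  calc Real.log ((D * q ^ 2 + 1 : ℕ) : ℝ)
      ≤ 2 * (u ^ r / a) + 2 * (ε / (2 * a) * u) := by linarith
    _ = (2 * u ^ r + ε * u) / a := by field_simp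
    _ ≤ (2 * u ^ r + ε * u ^ r) / a := by gcongr
    _ = (2 + ε) / a * u ^ r := by ring

lemma size_bound {T T' q mm C S Rc v e : ℝ} {D : ℕ} (hT : 0 ≤ T) (hq : 0 < q) (hT' : 0 < T')
    (hratio : Real.exp (-v) * q ≤ mm) (hR : T' * Real.exp (-e) ≤ Rc)
    (hcard : T * mm ^ D * Rc ≤ S * (q ^ D * (2 * T'))) (hC : D * v + e + Real.log 2 ≤ C) :
    T * Real.exp (-C) ≤ S := by
  have h1 : T * (Real.exp (-v) * q) ^ D * (T' * Real.exp (-e)) ≤ S * (q ^ D * (2 * T')) := by
    refine le_trans ?_ hcard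
    have : 0 ≤ mm := le_trans (by positivity) hratio
    gcongr
  refine le_trans (mul_le_mul_of_nonneg_left (Real.exp_le_exp.2
    (show -C ≤ -(D * v) + -e + -Real.log 2 by linarith)) hT) ?_
  rw [Real.exp_add, Real.exp_add, Real.exp_neg (Real.log 2), Real.exp_log two_pos, ← mul_neg,
    Real.exp_nat_mul]
  refine le_of_mul_le_mul_right (le_trans (le_of_eq ?_) h1)
    (show 0 < q ^ D * (2 * T') by positivity)
  rw [mul_pow]
  field_simp

/-- One lifting step, analytic form. -/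
theorem has_step (Qin Qout : Finset ℤ → Prop) {P B : ℕ} (hP : 2 ≤ P) (hB : 1 ≤ B)
    {X : ℝ} (hX : 0 < X) {r : ℕ} (hr : 1 ≤ r)
    (hcomb : ∀ (q m D T : ℕ) (γ δ : ℤ) (R S : Finset ℤ), P * m ≤ q → B * T ≤ q ^ D → Qin R →
      S ⊆ Finset.Ico (0 : ℤ) T → Sel q m D γ δ R S → Qout S)
    (hin : Has Qin X r) : Has Qout (2 * Real.log P * X) (r + 1) := by
  intro c' hc'
  set w := Real.log (P : ℝ) with hwdef
  have hP1 : (1 : ℝ) < P := by exact_mod_cast (show 1 < P by omega)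
  have hw : 0 < w := Real.log_pos hP1
  obtain ⟨a, ε, ha, hε, hlt⟩ := exists_eps hw hX hr hc'
  set c := (r : ℝ) * X ^ ((r : ℝ)⁻¹) + ε with hcdef
  have hc0 : 0 ≤ c := by positivity
  set κ := ((2 + ε) / a) ^ ((r : ℝ)⁻¹) with hκdef
  obtain ⟨N0, hN0⟩ := eventually_atTop.1 (hin c (by rw [hcdef]; linarith))
  set N1 : ℝ := max (max ((P : ℝ) / (1 - Real.exp (-ε))) N0) 1 with hN1def
  set δ0 := ε / (4 * a ^ 2) with hδdef
  have hδ : 0 < δ0 := by positivity
  set K1 := 2 * δ0 - Real.log δ0 + 2 * Real.log 2 + 2 * Real.log B with hK1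
  set gap := c' - (a * (w + ε) + c * κ) with hgapdef
  have hgap : 0 < gap := by rw [hgapdef]; linarith
  set U := max (max 1 (K1 * (2 * a) / ε))
    (max ((w + ε + Real.log 2) / gap) ((a + 1) * Real.log N1)) with hUdef
  have htend : Tendsto (fun T : ℕ => Real.log T ^ (((r + 1 : ℕ) : ℝ)⁻¹)) atTop atTop :=
    (tendsto_rpow_atTop (by positivity)).comp
      (Real.tendsto_log_atTop.comp tendsto_natCast_atTop_atTop)
  filter_upwards [htend.eventually_ge_atTop U, eventually_ge_atTop 1] with T hTu hT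
  set u := Real.log T ^ (((r + 1 : ℕ) : ℝ)⁻¹) with hudef
  have hu1 : 1 ≤ u := le_trans (le_trans (le_max_left _ _) (le_max_left _ _)) hTu
  have hu2 : K1 * (2 * a) / ε ≤ u := le_trans (le_trans (le_max_right _ _) (le_max_left _ _)) hTu
  have hu3 : (w + ε + Real.log 2) / gap ≤ u :=
    le_trans (le_trans (le_max_left _ _) (le_max_right _ _)) hTu
  have hu4 : (a + 1) * Real.log N1 ≤ u :=
    le_trans (le_trans (le_max_right _ _) (le_max_right _ _)) hTu
  rw [div_le_iff₀ hε] at hu2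
  rw [div_le_iff₀ hgap] at hu3
  have hT1 : (1 : ℝ) ≤ T := by exact_mod_cast hT
  have hL0 : 0 ≤ Real.log T := Real.log_nonneg hT1
  have hL : u ^ (r + 1) = Real.log T := Real.rpow_inv_natCast_pow hL0 (by omega)
  have hB1 : (1 : ℝ) ≤ B := by exact_mod_cast hB
  have hlB : 0 ≤ Real.log B := Real.log_nonneg hB1
  have hau : 0 < a * u := by positivity
  set D := ⌈a * u⌉₊ with hDdef
  have hD1 : a * u ≤ D := Nat.le_ceil _
  have hD2 : (D : ℝ) ≤ a * u + 1 := (Nat.ceil_lt_add_one hau.le).le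
  have hD0 : (0 : ℝ) < D := lt_of_lt_of_le hau hD1
  have hD0' : 1 ≤ D := Nat.ceil_pos.2 hau
  set y := (Real.log T + Real.log B) / D with hydef
  have hy0 : 0 ≤ y := by positivity
  set q := ⌈Real.exp y⌉₊ with hqdef
  have hq1 : Real.exp y ≤ q := Nat.le_ceil _
  have hq2 : (q : ℝ) ≤ 2 * Real.exp y := by
    have := (Nat.ceil_lt_add_one (Real.exp_pos y).le).le
    linarith [Real.one_le_exp hy0]
  have hq0 : (0 : ℝ) < q := lt_of_lt_of_le (Real.exp_pos y) hq1
  have hq0' : 0 < q := by exact_mod_cast hq0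
  have hBT : B * T ≤ q ^ D := by
    have h1 : ((B : ℝ) * T) ≤ (q : ℝ) ^ D := by
      calc (B : ℝ) * T = Real.exp y ^ D := by
            rw [← Real.exp_nat_mul, hydef, mul_div_cancel₀ _ hD0.ne', Real.exp_add,
              Real.exp_log (by linarith), Real.exp_log (by linarith)]
            ring
        _ ≤ (q : ℝ) ^ D := pow_le_pow_left₀ (Real.exp_pos y).le hq1 D
    exact_mod_cast h1
  have hyN : Real.log N1 ≤ y := by
    refine le_trans ?_ (show Real.log T / D ≤ y by rw [hydef]; gcongr; linarith)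
    rw [le_div_iff₀ hD0]
    have hlN : 0 ≤ Real.log N1 := Real.log_nonneg (le_max_right _ _)
    have h2 : u ^ 2 ≤ u ^ (r + 1) := pow_le_pow_right₀ hu1 (by omega)
    have h3 : (D : ℝ) ≤ (a + 1) * u := by linarith
    have h4 := mul_le_mul_of_nonneg_left h3 hlN
    nlinarith
  have hqN : N1 ≤ q := by
    refine le_trans ?_ hq1
    calc N1 = Real.exp (Real.log N1) :=
          (Real.exp_log (lt_of_lt_of_le one_pos (le_max_right _ _))).symm
      _ ≤ Real.exp y := Real.exp_le_exp.2 hyN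
  set m := q / P with hmdef
  set T' := D * q ^ 2 + 1 with hT'def
  have hmq : m ≤ q := Nat.div_le_self _ _
  have hT'N : N0 ≤ T' := by
    have h1 : (N0 : ℝ) ≤ q := le_trans (le_trans (le_max_right _ _) (le_max_left _ _)) hqN
    have h2 : N0 ≤ q := by exact_mod_cast h1
    have h3 : q ≤ q ^ 2 := Nat.le_self_pow (by norm_num) q
    have h4 : q ^ 2 ≤ D * q ^ 2 := Nat.le_mul_of_pos_left _ hD0'
    omega
  obtain ⟨R, hR, hQR, hRc⟩ := hN0 T' hT'N
  have hT'm : D * m ^ 2 < T' := by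
    have := Nat.mul_le_mul_left D (Nat.pow_le_pow_left hmq 2)
    omega
  obtain ⟨γ, δ, S, hS, hsel, hcard⟩ := exists_sel (T := T) hmq hq0' hT'm hR
  refine ⟨S, hS, hcomb q m D T γ δ R S (Nat.mul_div_le q P) hBT hQR hS hsel, ?_⟩
  have hT'0 : (0 : ℝ) < T' := by rw [hT'def]; positivity
  have hlogT' : Real.log T' ≤ (2 + ε) / a * u ^ r :=
    log_range_bound ha hε hr hu1 hL.symm hL0 hlB hD0' hD1 hD2 hq0' hq2 hu2
  have hκu : Real.log T' ^ ((r : ℝ)⁻¹) ≤ κ * u := by
    have h0 : 0 ≤ Real.log T' := Real.log_natCast_nonneg T'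
    refine le_trans (Real.rpow_le_rpow h0 hlogT' (by positivity)) (le_of_eq ?_)
    rw [Real.mul_rpow (by positivity) (by positivity), Real.pow_rpow_inv_natCast (by linarith)
      (by omega)]
  have hratio : Real.exp (-(w + ε)) * q ≤ (m : ℝ) :=
    ratio_bound (by omega) hε (le_trans (le_trans (le_max_left _ _) (le_max_left _ _)) hqN)
  have hR' : (T' : ℝ) * Real.exp (-c * (κ * u)) ≤ R.card := by
    refine le_trans (mul_le_mul_of_nonneg_left (Real.exp_le_exp.2 ?_) hT'0.le) hRc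
    rw [neg_mul, neg_mul]
    exact neg_le_neg (mul_le_mul_of_nonneg_left hκu hc0)
  have hcard' : (T : ℝ) * (m : ℝ) ^ D * R.card ≤ S.card * ((q : ℝ) ^ D * (2 * T')) := by
    exact_mod_cast hcard
  have hexp : -c' * u ≤ -(D * (w + ε)) + -c * (κ * u) + -Real.log 2 := by
    have := mul_le_mul_of_nonneg_right hD2 (show 0 ≤ w + ε by linarith)
    rw [hgapdef] at hu3
    linarith
  rw [neg_mul]
  refine size_bound (v := w + ε) (e := c * (κ * u)) (by linarith) hq0 hT'0 hratio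
    (by rwa [← neg_mul]) hcard' ?_
  linarith

end P057
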