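import Vale.Agent.P057.Digits

/-!
The first lifting step: digits are only asked to have alternating differences, which costs a
smaller factor, and a constant square sum is still enough to rule out progressions of exact degree.
-/

namespace P057

open Finset

lemma abel_bound {n : ℕ} {a : ℕ → ℤ} {h : ℕ} (hh : h ≤ n) (ha0 : 0 ≤ a 0)
    (hup : ∀ t, t < h → a t ≤ a (t + 1)) (hdown : ∀ t, h ≤ t → t < n → a (t + 1) ≤ a t)
    (han : 0 ≤ a n) {w : ℕ → ℤ} {M : ℤ} (hw : ∀ t, t ≤ n + 1 → |w t| ≤ M) :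
    |∑ t ∈ range (n + 1), a t * (w t - w (t + 1))| ≤ 2 * a h * M := by
  have e : ∀ N, (∑ t ∈ range (N + 1), a t * (w t - w (t + 1))) + a (N + 1) * w (N + 1)
      = ((∑ t ∈ range N, a t * (w t - w (t + 1))) + a N * w N)
        + (a (N + 1) - a N) * w (N + 1) := by
    intro N
    rw [Finset.sum_range_succ]
    ring
  have h1 : ∀ N, N ≤ h →
      |(∑ t ∈ range N, a t * (w t - w (t + 1))) + a N * w N| ≤ a N * M := by
    intro N
    induction N with
    | zero =>
      intro _
      simp only [Finset.range_zero, Finset.sum_empty, zero_add, abs_mul, abs_of_nonneg ha0]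
      exact mul_le_mul_of_nonneg_left (hw 0 (by omega)) ha0
    | succ N ih =>
      intro hN
      rw [e]
      refine le_trans (abs_add_le _ _) ?_
      have hd : 0 ≤ a (N + 1) - a N := by linarith [hup N (by omega)]
      rw [abs_mul, abs_of_nonneg hd]
      have := mul_le_mul_of_nonneg_left (hw (N + 1) (by omega)) hd
      linarith [ih (by omega)]
  have h2 : ∀ N, h ≤ N → N ≤ n →
      |(∑ t ∈ range N, a t * (w t - w (t + 1))) + a N * w N| ≤ (2 * a h - a N) * M := by
    intro N hN
    induction N, hN using Nat.le_induction with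
    | base => intro _; linarith [h1 h le_rfl]
    | succ N hN ih =>
      intro hn
      rw [e]
      refine le_trans (abs_add_le _ _) ?_
      have hd : a (N + 1) - a N ≤ 0 := by linarith [hdown N hN (by omega)]
      rw [abs_mul, abs_of_nonpos hd]
      have := mul_le_mul_of_nonneg_left (hw (N + 1) (by omega)) (neg_nonneg.2 hd)
      linarith [ih (by omega)]
  have h3 := h2 n hh le_rfl
  rw [Finset.sum_range_succ]
  have h4 : |a n * w (n + 1)| ≤ a n * M := by
    rw [abs_mul, abs_of_nonneg han]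
    exact mul_le_mul_of_nonneg_left (hw _ le_rfl) han
  calc |(∑ t ∈ range n, a t * (w t - w (t + 1))) + a n * (w n - w (n + 1))|
      = |((∑ t ∈ range n, a t * (w t - w (t + 1))) + a n * w n) - a n * w (n + 1)| := by ring_nf
    _ ≤ |(∑ t ∈ range n, a t * (w t - w (t + 1))) + a n * w n| + |a n * w (n + 1)| := abs_sub _ _
    _ ≤ 2 * a h * M := by linarith

lemma choose_down {n t : ℕ} (h : n / 2 ≤ t) (htn : t < n) :
    n.choose (t + 1) ≤ n.choose t := by
  have e := Nat.choose_succ_right_eq n t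
  have hle : n - t ≤ t + 1 := by omega
  nlinarith [Nat.zero_le (n.choose t)]

lemma pair_bound {n a : ℕ} {f : ℕ → ℤ} {M : ℤ} (h : ∀ i, i ≤ n + 1 → |f (a + i)| ≤ M) :
    |dif^[n] f a + dif^[n] f (a + 1)| ≤ 2 * (n.choose (n / 2) : ℤ) * M := by
  let w : ℕ → ℤ := fun t => (-1) ^ (n + t) * f (a + t)
  have e : dif^[n] f a + dif^[n] f (a + 1)
      = ∑ t ∈ range (n + 1), (n.choose t : ℤ) * (w t - w (t + 1)) := by
    unfold dif
    rw [fwdDiff_iter_eq_sum_shift, fwdDiff_iter_eq_sum_shift, ← Finset.sum_add_distrib]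
    refine Finset.sum_congr rfl fun t ht => ?_
    have htn : t ≤ n := by simpa [Finset.mem_range, Nat.lt_succ_iff] using ht
    have hs : ((-1 : ℤ)) ^ (n - t) = (-1) ^ (n + t) := by
      rw [show n + t = (n - t) + 2 * t by omega, pow_add, pow_mul]
      simp
    simp only [w, smul_eq_mul, mul_one, hs]
    rw [show n + (t + 1) = n + t + 1 by omega, pow_succ, show a + 1 + t = a + (t + 1) by omega]
    ring
  rw [e]
  exact abel_bound (a := fun t => (n.choose t : ℤ)) (h := n / 2) (by omega)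
    (Int.natCast_nonneg _)
    (fun t ht => by exact_mod_cast Nat.choose_le_succ_of_lt_half_left ht)
    (fun t ht htn => by exact_mod_cast choose_down ht htn)
    (Int.natCast_nonneg _)
    (fun t ht => by simpa [w, abs_mul] using h t ht)

lemma pair_digit_bound {n a m : ℕ} (hn : 1 ≤ n) {f : ℕ → ℤ}
    (h : ∀ i, i ≤ n + 1 → 0 ≤ f (a + i) ∧ f (a + i) < m) :
    2 * |dif^[n] f a + dif^[n] f (a + 1)| ≤ 2 * (n.choose (n / 2) : ℤ) * ((m : ℤ) - 1) := by
  have h1 := pair_bound (n := n) (a := a)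
    (f := fun t => 2 * f t + (-1) * (fun _ => (m : ℤ) - 1) t) (M := (m : ℤ) - 1) (fun i hi => by
      have := h i hi
      rw [abs_le]
      simp only
      constructor <;> linarith)
  rw [dif_lin, dif_lin, dif_const hn, dif_const hn, mul_zero, add_zero, add_zero, ← mul_add,
    abs_mul] at h1
  simpa using h1

/-- A family with alternating differences of order `j + 1` and constant square sum on a window
of length above `3 j + 1` has alternating differences of order `j`. -/
lemma alt_square {ι : Type*} [Fintype ι] {j k : ℕ} (hj : 1 ≤ j) (hk : 3 * j + 2 ≤ k)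
    (y : ι → ℕ → ℤ) (δ : ℤ)
    (hy : ∀ l i, i + j + 2 < k → dif^[j + 1] (y l) i + dif^[j + 1] (y l) (i + 1) = 0)
    (hF : ∀ i, i < k → ∑ l, y l i ^ 2 = δ) :
    ∀ l, dif^[j] (y l) 0 + dif^[j] (y l) 1 = 0 := by
  let c : ι → ℤ := fun l => dif^[j + 1] (y l) 0
  have hc : ∀ l i, i + j + 1 < k → dif^[j + 1] (y l) i = c l * (-1) ^ i := by
    intro l i
    induction i with
    | zero => intro _; simp [c]
    | succ i ih =>
      intro hi
      have h1 := ih (by omega)
      have h2 := hy l i (by omega)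
      rw [pow_succ]
      linarith
  let p : ι → ℕ → ℤ := fun l i => (-2) ^ (j + 1) * y l i + (-(c l)) * (-1) ^ i
  have hp : ∀ l i, i + j + 1 < k → dif^[j + 1] (p l) i = 0 := by
    intro l i hi
    simp only [p]
    rw [dif_lin, dif_alt, hc l i hi]
    ring
  let g : ι → ℕ → ℤ := fun l => newt j (p l)
  have hg : ∀ l i, i < k → (-2) ^ (j + 1) * y l i = g l i + c l * (-1) ^ i := by
    intro l i hi
    simp only [g]
    rw [newt_eq (hp l) hi]
    simp only [p]
    ring
  let G1 : ℕ → ℤ := fun i => ∑ l, g l i * g l i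
  let G2 : ℕ → ℤ := fun i => ∑ l, 2 * c l * g l i
  let C0 : ℤ := (2 : ℤ) ^ (2 * (j + 1)) * δ - ∑ l, c l ^ 2
  have hmain : ∀ i, i < k → 1 * G1 i + 1 * (fun t => (-1) ^ t * G2 t) i = C0 := by
    intro i hi
    have e1 : (2 : ℤ) ^ (2 * (j + 1)) * δ = ∑ l, ((-2 : ℤ) ^ (j + 1) * y l i) ^ 2 := by
      rw [← hF i hi, Finset.mul_sum]
      refine Finset.sum_congr rfl fun l _ => ?_
      rw [mul_pow, ← pow_mul, mul_comm (j + 1) 2, pow_mul, pow_mul]
      norm_num
    simp only [G1, G2, C0, e1, one_mul, Finset.mul_sum]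
    rw [← Finset.sum_add_distrib, ← Finset.sum_sub_distrib]
    refine Finset.sum_congr rfl fun l _ => ?_
    rw [hg l i hi]
    have hsq : ((-1 : ℤ) ^ i) * (-1) ^ i = 1 := by rw [← mul_pow]; simp
    linear_combination (- (c l) ^ 2) * hsq
  have hG2 : psum^[j + 1] (fun t => (-1) ^ t * G2 t) = fun _ => (0 : ℤ) := by
    funext i
    rw [psum_alt]
    have : dif^[j + 1] G2 i = 0 := by
      simp only [G2]
      rw [dif_sum]
      refine Finset.sum_eq_zero fun l _ => ?_
      rw [dif_smul, newt_dif, mul_zero]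
    rw [this, mul_zero]
  let W : ℤ := ∑ l, ((2 * j).choose j : ℤ) * (dif^[j] (g l) 0 * dif^[j] (g l) 0)
  have hG1 : dif^[2 * j] G1 = fun _ => W := by
    funext i
    simp only [G1, W]
    rw [dif_sum]
    refine Finset.sum_congr rfl fun l _ => ?_
    rw [dif_mul (2 * j) j j _ _ (by omega) (newt_dif j (p l)) (newt_dif j (p l)) i]
    ring
  have hlhs : dif^[2 * j] (psum^[j + 1] (fun i => 1 * G1 i + 1 * (fun t => (-1) ^ t * G2 t) i)) 0
      = 2 ^ (j + 1) * W := by
    rw [psum_lin, hG2, dif_lin, psum_dif, hG1, psum_const, dif_zero]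
    ring
  have hrhs : dif^[2 * j] (psum^[j + 1] (fun _ => C0)) 0 = 0 := by
    rw [psum_const]
    exact dif_const (by omega) _ _
  have hwin : dif^[2 * j] (psum^[j + 1] (fun i => 1 * G1 i + 1 * (fun t => (-1) ^ t * G2 t) i)) 0
      = dif^[2 * j] (psum^[j + 1] (fun _ => C0)) 0 :=
    dif_congr fun i hi => psum_congr fun t ht => hmain _ (by omega)
  rw [hlhs, hrhs, mul_eq_zero] at hwin
  have hW : W = 0 := hwin.resolve_left (pow_ne_zero _ (by norm_num))
  intro l
  have hgl : dif^[j] (g l) 0 = 0 := by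
    have h1 := (Finset.sum_eq_zero_iff_of_nonneg
      (f := fun i => ((2 * j).choose j : ℤ) * (dif^[j] (g i) 0 * dif^[j] (g i) 0))
      (fun i _ => mul_nonneg (Int.natCast_nonneg _) (mul_self_nonneg _))).1 hW l
      (Finset.mem_univ l)
    have hc0 : ((2 * j).choose j : ℤ) ≠ 0 := by
      exact_mod_cast (Nat.choose_pos (by omega : j ≤ 2 * j)).ne'
    exact mul_self_eq_zero.1 ((mul_eq_zero.1 h1).resolve_left hc0)
  have key : ∀ a, a + j < k →
      (-2) ^ (j + 1) * dif^[j] (y l) a = c l * ((-2) ^ j * (-1) ^ a) := by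
    intro a ha
    rw [← dif_smul, dif_congr (g := fun t => 1 * g l t + c l * (fun u => (-1 : ℤ) ^ u) t)
      (fun i hi => by rw [hg l (a + i) (by omega)]; ring), dif_lin, dif_alt,
      dif_const_of_succ (newt_dif j (p l)) a]
    show 1 * dif^[j] (g l) 0 + _ = _
    rw [hgl]
    ring
  have k0 := key 0 (by omega)
  have k1 := key 1 (by omega)
  have h2 : (-2 : ℤ) ^ (j + 1) * (dif^[j] (y l) 0 + dif^[j] (y l) 1) = 0 := by
    rw [mul_add, k0, k1]
    ring
  exact (mul_eq_zero.1 h2).resolve_left (pow_ne_zero _ (by norm_num))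

/-- The first lifting step. -/
lemma free_base {k j q m D T : ℕ} (hj : 1 ≤ j) (hk : 3 * j + 2 ≤ k)
    (hm : (j + 1).choose ((j + 1) / 2) * m ≤ q) (hQ : 2 ^ (j + 1) * T ≤ q ^ D)
    {γ δ : ℤ} {S : Finset ℤ} (hST : S ⊆ Ico (0 : ℤ) T)
    (hS : Sel q m D γ δ {0} S) : Free k j S := by
  intro s hs hlin
  obtain ⟨y, hy, hyR, hyd⟩ := exists_digits hS s hs
  have hF : ∀ i, i < k → ∑ l, y l i ^ 2 = δ := fun i hi => by
    have := hyR i hi
    rw [Finset.mem_singleton, sub_eq_zero] at this
    exact this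
  have hpair : ∀ l i, i + j + 2 < k →
      dif^[j + 1] (y l) i + dif^[j + 1] (y l) (i + 1) = 0 := by
    intro l i hi
    have d1 := hyd (j + 1) i (by omega) (by omega)
    have d2 := hyd (j + 1) (i + 1) (by omega) (by omega)
    rw [hlin i (by omega), sub_zero] at d1
    rw [hlin (i + 1) (by omega), sub_zero] at d2
    have d3 := dvd_add d1 d2
    rw [← Finset.sum_add_distrib] at d3
    simp only [← add_mul] at d3
    refine digits_zero (fun l => dif^[j + 1] (y l) i + dif^[j + 1] (y l) (i + 1))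
      (fun l => ?_) d3 l
    refine abs_lt_of_bound (Nat.choose_pos (by omega : (j + 1) / 2 ≤ j + 1)) hm ?_
    exact pair_digit_bound (by omega) fun t ht => hy l (i + t) (by omega)
  have halt := alt_square hj hk y δ hpair hF
  have d0 := hyd j 0 hj (by omega)
  have d1 := hyd j 1 hj (by omega)
  have hs1 : dif^[j] s 1 = dif^[j] s 0 := by
    have := hlin 0 (by omega)
    rw [dif_succ] at this
    linarith
  have d2 := dvd_add d0 d1
  rw [hs1] at d2
  have hdiv : (q : ℤ) ^ D ∣ 2 * dif^[j] s 0 := by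
    have e : (∑ l : Fin D, dif^[j] (y l) 0 * (q : ℤ) ^ (l : ℕ)) - dif^[j] s 0
        + ((∑ l : Fin D, dif^[j] (y l) 1 * (q : ℤ) ^ (l : ℕ)) - dif^[j] s 0)
        = -(2 * dif^[j] s 0) := by
      have : (∑ l : Fin D, dif^[j] (y l) 0 * (q : ℤ) ^ (l : ℕ))
          + (∑ l : Fin D, dif^[j] (y l) 1 * (q : ℤ) ^ (l : ℕ)) = 0 := by
        rw [← Finset.sum_add_distrib]
        exact Finset.sum_eq_zero fun l _ => by rw [← add_mul, halt l, zero_mul]
      linarith
    rw [e, dvd_neg] at d2
    exact d2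
  have hb := dif_digit_bound (n := j) (a := 0) (m := T) hj (f := s) (fun i hi => by
    have := hST (hs (0 + i) (by omega))
    simpa using this)
  have h1 : ((2 : ℤ) ^ (j + 1) * T) ≤ (q : ℤ) ^ D := by exact_mod_cast hQ
  have h2 : (0 : ℤ) < 2 ^ j := pow_pos (by norm_num) j
  have h3 := Int.eq_zero_of_abs_lt_dvd hdiv (by
    rw [abs_mul, abs_two]
    rw [pow_succ] at h1
    nlinarith [abs_nonneg (dif^[j] s 0)])
  linarith

end P057
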