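import Mathlib

/-!
Finite difference calculus on integer sequences, restricted to windows of finite length,
for the Rankin type construction of sets free of long progressions.
-/

namespace P057

open Finset fwdDiff

/-- Forward difference with step one on integer sequences. -/
abbrev dif : (ℕ → ℤ) → (ℕ → ℤ) := fwdDiff (1 : ℕ)

/-- The sum of a sequence and its shift by one. -/
def psum (f : ℕ → ℤ) : ℕ → ℤ := fun i => f i + f (i + 1)

lemma dif_apply (f : ℕ → ℤ) (i : ℕ) : dif f i = f (i + 1) - f i := rfl

lemma dif_succ (n : ℕ) (f : ℕ → ℤ) (i : ℕ) :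
    dif^[n + 1] f i = dif^[n] f (i + 1) - dif^[n] f i := by
  rw [Function.iterate_succ_apply']; rfl

lemma dif_congr {n a : ℕ} {f g : ℕ → ℤ} (h : ∀ i, i ≤ n → f (a + i) = g (a + i)) :
    dif^[n] f a = dif^[n] g a := by
  induction n generalizing a with
  | zero => simpa using h 0 le_rfl
  | succ n ih =>
    rw [dif_succ, dif_succ]
    have h1 : dif^[n] f (a + 1) = dif^[n] g (a + 1) :=
      ih fun i hi => by
        have := h (i + 1) (by omega)
        rwa [show a + (i + 1) = a + 1 + i by omega] at this
    have h2 : dif^[n] f a = dif^[n] g a := ih fun i hi => h i (by omega)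
    rw [h1, h2]

lemma dif_lin (n : ℕ) (a b : ℤ) (f g : ℕ → ℤ) (i : ℕ) :
    dif^[n] (fun t => a * f t + b * g t) i = a * dif^[n] f i + b * dif^[n] g i := by
  induction n generalizing i with
  | zero => simp
  | succ n ih => rw [dif_succ, dif_succ, dif_succ, ih, ih]; ring

lemma dif_smul (n : ℕ) (a : ℤ) (f : ℕ → ℤ) (i : ℕ) :
    dif^[n] (fun t => a * f t) i = a * dif^[n] f i := by
  have := dif_lin n a 0 f f i
  simpa using this

lemma dif_zero (n : ℕ) (i : ℕ) : dif^[n] (fun _ => (0 : ℤ)) i = 0 := by
  induction n generalizing i with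
  | zero => simp
  | succ n ih => rw [dif_succ, ih, ih]; ring

lemma dif_const {n : ℕ} (hn : 1 ≤ n) (c : ℤ) (i : ℕ) : dif^[n] (fun _ => c) i = 0 := by
  obtain ⟨m, rfl⟩ : ∃ m, n = m + 1 := ⟨n - 1, by omega⟩
  rw [Function.iterate_succ_apply]
  have : dif (fun _ => c) = fun _ => (0 : ℤ) := by
    funext t
    simp [dif_apply]
  rw [this, dif_zero]

lemma dif_sum {α : Type*} (s : Finset α) (F : α → ℕ → ℤ) (n i : ℕ) :
    dif^[n] (fun t => ∑ l ∈ s, F l t) i = ∑ l ∈ s, dif^[n] (F l) i := by
  induction n generalizing i with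
  | zero => simp
  | succ n ih =>
    simp only [dif_succ, ih, Finset.sum_sub_distrib]

lemma dif_shift (n : ℕ) (f : ℕ → ℤ) (i : ℕ) :
    dif^[n] (fun t => f (t + 1)) i = dif^[n] f (i + 1) := by
  induction n generalizing i with
  | zero => simp
  | succ n ih => rw [dif_succ, dif_succ, ih, ih]

lemma dif_abs_le {n a : ℕ} {f : ℕ → ℤ} {M : ℤ} (h : ∀ i, i ≤ n → |f (a + i)| ≤ M) :
    |dif^[n] f a| ≤ 2 ^ n * M := by
  induction n generalizing a with
  | zero => simpa using h 0 le_rfl
  | succ n ih =>
    rw [dif_succ]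
    have h1 : |dif^[n] f (a + 1)| ≤ 2 ^ n * M := ih fun i hi => by
      have := h (i + 1) (by omega)
      rwa [show a + (i + 1) = a + 1 + i by omega] at this
    have h2 : |dif^[n] f a| ≤ 2 ^ n * M := ih fun i hi => h i (by omega)
    calc |dif^[n] f (a + 1) - dif^[n] f a| ≤ |dif^[n] f (a + 1)| + |dif^[n] f a| := abs_sub _ _
      _ ≤ 2 ^ n * M + 2 ^ n * M := add_le_add h1 h2
      _ = 2 ^ (n + 1) * M := by ring

lemma dif_alt (n : ℕ) (i : ℕ) :
    dif^[n] (fun t => (-1 : ℤ) ^ t) i = (-2) ^ n * (-1) ^ i := by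
  induction n generalizing i with
  | zero => simp
  | succ n ih => rw [dif_succ, ih, ih]; ring

lemma dif_higher {d n : ℕ} {f : ℕ → ℤ} (h : ∀ i, dif^[d] f i = 0) (hn : d ≤ n) (i : ℕ) :
    dif^[n] f i = 0 := by
  obtain ⟨m, rfl⟩ : ∃ m, n = m + d := ⟨n - d, by omega⟩
  rw [Function.iterate_add_apply, show dif^[d] f = fun _ => (0 : ℤ) from funext h, dif_zero]

lemma dif_const_of_succ {d : ℕ} {f : ℕ → ℤ} (h : ∀ i, dif^[d + 1] f i = 0) (i : ℕ) :
    dif^[d] f i = dif^[d] f 0 := by
  induction i with
  | zero => rfl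
  | succ i ih =>
    have := h i
    rw [dif_succ] at this
    linarith

/-- Top coefficient rule for products. -/
lemma dif_mul : ∀ (s a b : ℕ) (f g : ℕ → ℤ), a + b = s →
    (∀ i, dif^[a + 1] f i = 0) → (∀ i, dif^[b + 1] g i = 0) →
    ∀ i, dif^[s] (fun t => f t * g t) i = (s.choose a : ℤ) * dif^[a] f 0 * dif^[b] g 0 := by
  intro s
  induction s with
  | zero =>
    intro a b f g hs hf hg i
    obtain ⟨rfl, rfl⟩ : a = 0 ∧ b = 0 := by omega
    have e1 := dif_const_of_succ hf i
    have e2 := dif_const_of_succ hg i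
    simp only [Function.iterate_zero_apply] at e1 e2 ⊢
    rw [e1, e2]
    simp
  | succ s ih =>
    intro a b f g hs hf hg i
    have e : dif (fun t => f t * g t)
        = fun t => 1 * (dif f t * g (t + 1)) + 1 * (f t * dif g t) := by
      funext t
      simp only [dif_apply]
      ring
    rw [Function.iterate_succ_apply, e, dif_lin, one_mul, one_mul]
    have hfst : dif^[s] (fun t => dif f t * g (t + 1)) i
        = (if a = 0 then 0 else (s.choose (a - 1) : ℤ)) * dif^[a] f 0 * dif^[b] g 0 := by
      rcases Nat.eq_zero_or_pos a with ha | ha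
      · subst ha
        have hz : (fun t => dif f t * g (t + 1)) = fun _ => (0 : ℤ) := by
          funext t
          have h0 := hf t
          rw [Function.iterate_succ_apply, Function.iterate_zero_apply] at h0
          rw [h0, zero_mul]
        rw [hz, dif_zero]
        simp
      · obtain ⟨a', rfl⟩ : ∃ a', a = a' + 1 := ⟨a - 1, by omega⟩
        have hshift : ∀ t, dif^[b + 1] (fun u => g (u + 1)) t = 0 := fun t => by
          rw [dif_shift]; exact hg _
        have hdf : ∀ t, dif^[a' + 1] (dif f) t = 0 := fun t => by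
          rw [← Function.iterate_succ_apply]; exact hf t
        rw [ih a' b (dif f) (fun u => g (u + 1)) (by omega) hdf hshift i,
          dif_shift, dif_const_of_succ hg, ← Function.iterate_succ_apply]
        simp
    have hsnd : dif^[s] (fun t => f t * dif g t) i
        = (if b = 0 then 0 else (s.choose a : ℤ)) * dif^[a] f 0 * dif^[b] g 0 := by
      rcases Nat.eq_zero_or_pos b with hb | hb
      · subst hb
        have hz : (fun t => f t * dif g t) = fun _ => (0 : ℤ) := by
          funext t
          have h0 := hg t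
          rw [Function.iterate_succ_apply, Function.iterate_zero_apply] at h0
          rw [h0, mul_zero]
        rw [hz, dif_zero]
        simp
      · obtain ⟨b', rfl⟩ : ∃ b', b = b' + 1 := ⟨b - 1, by omega⟩
        have hdg : ∀ t, dif^[b' + 1] (dif g) t = 0 := fun t => by
          rw [← Function.iterate_succ_apply]; exact hg t
        rw [ih a b' f (dif g) (by omega) hf hdg i, ← Function.iterate_succ_apply]
        simp
    rw [hfst, hsnd]
    rcases Nat.eq_zero_or_pos a with ha | ha
    · subst ha
      have hb : b ≠ 0 := by omega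
      simp [hb]
    · obtain ⟨a', rfl⟩ : ∃ a', a = a' + 1 := ⟨a - 1, by omega⟩
      rcases Nat.eq_zero_or_pos b with hb | hb
      · subst hb
        have : a' = s := by omega
        subst this
        simp
      · have hb' : b ≠ 0 := by omega
        rw [Nat.choose_succ_succ' s a']
        simp [hb']
        ring

/-- The Newton polynomial of degree at most `d` through a sequence. -/
def newt (d : ℕ) (y : ℕ → ℤ) : ℕ → ℤ :=
  fun i => ∑ j ∈ range (d + 1), dif^[j] y 0 * (i.choose j : ℤ)

lemma newt_dif (d : ℕ) (y : ℕ → ℤ) (i : ℕ) : dif^[d + 1] (newt d y) i = 0 := by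
  unfold newt
  rw [dif_sum]
  refine Finset.sum_eq_zero fun j hj => ?_
  rw [dif_smul]
  have hj' : j ≤ d := by simpa [Finset.mem_range, Nat.lt_succ_iff] using hj
  have h1 : ∀ t, dif^[j + 1] (fun x : ℕ => (x.choose j : ℤ)) t = 0 := fun t => by
    have h2 : dif^[j] (fun x : ℕ => (x.choose j : ℤ)) = fun _ => (1 : ℤ) := by
      have := fwdDiff_iter_choose 0 j
      simpa using this
    rw [Function.iterate_succ_apply', h2]
    simp [dif_apply]
  rw [dif_higher h1 (by omega), mul_zero]

lemma newt_eq {d k : ℕ} {y : ℕ → ℤ} (h : ∀ i, i + d + 1 < k → dif^[d + 1] y i = 0)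
    {i : ℕ} (hi : i < k) : newt d y i = y i := by
  have hz : ∀ j, d < j → j < k → dif^[j] y 0 = 0 := by
    intro j hj hjk
    obtain ⟨m, rfl⟩ : ∃ m, j = m + (d + 1) := ⟨j - (d + 1), by omega⟩
    rw [Function.iterate_add_apply]
    rw [dif_congr (g := fun _ => (0 : ℤ)) (fun t ht => h (0 + t) (by omega)), dif_zero]
  have hy := shift_eq_sum_fwdDiff_iter (h := (1 : ℕ)) y i 0
  simp only [zero_add, smul_eq_mul, mul_one, nsmul_eq_mul] at hy
  rw [hy]
  unfold newt
  rcases le_total (d + 1) (i + 1) with hle | hle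
  · refine (Finset.sum_congr rfl fun j _ => mul_comm _ _).trans
      (Finset.sum_subset (Finset.range_mono hle) fun j hj hj' => ?_)
    have h1 : j < i + 1 := Finset.mem_range.1 hj
    have h2 : ¬ j < d + 1 := fun hh => hj' (Finset.mem_range.2 hh)
    have := hz j (by omega) (by omega)
    rw [show dif^[j] y 0 = 0 from this, mul_zero]
  · refine ((Finset.sum_subset (Finset.range_mono hle) fun j hj hj' => ?_).trans
      (Finset.sum_congr rfl fun j _ => mul_comm _ _)).symm
    have h2 : ¬ j < i + 1 := fun hh => hj' (Finset.mem_range.2 hh)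
    rw [Nat.choose_eq_zero_of_lt (by omega)]
    simp

lemma newt_dif_top {d k : ℕ} {y : ℕ → ℤ} (h : ∀ i, i + d + 1 < k → dif^[d + 1] y i = 0)
    (hd : d < k) : dif^[d] (newt d y) 0 = dif^[d] y 0 :=
  dif_congr fun i hi => newt_eq h (by omega)

/-- Differences of the square sum of a family of sequences of degree at most `d` on a window. -/
lemma dif_sumsq {ι : Type*} (s : Finset ι) {d k : ℕ} (hk : 2 * d < k) (y : ι → ℕ → ℤ)
    (h : ∀ l ∈ s, ∀ i, i + d + 1 < k → dif^[d + 1] (y l) i = 0) :
    (∀ i, i + 2 * d + 1 < k → dif^[2 * d + 1] (fun t => ∑ l ∈ s, y l t ^ 2) i = 0) ∧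
      dif^[2 * d] (fun t => ∑ l ∈ s, y l t ^ 2) 0
        = ((2 * d).choose d : ℤ) * ∑ l ∈ s, (dif^[d] (y l) 0) ^ 2 := by
  let G : ℕ → ℤ := fun t => ∑ l ∈ s, newt d (y l) t * newt d (y l) t
  have heq : ∀ t, t < k → (∑ l ∈ s, y l t ^ 2) = G t := fun t ht =>
    Finset.sum_congr rfl fun l hl => by rw [newt_eq (h l hl) ht, pow_two]
  have htop : ∀ i, dif^[2 * d] G i = ((2 * d).choose d : ℤ) * ∑ l ∈ s, (dif^[d] (y l) 0) ^ 2 := by
    intro i
    simp only [G]
    rw [dif_sum, Finset.mul_sum]
    refine Finset.sum_congr rfl fun l hl => ?_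
    rw [dif_mul (2 * d) d d _ _ (by omega) (newt_dif d (y l)) (newt_dif d (y l)) i,
      newt_dif_top (h l hl) (by omega)]
    ring
  refine ⟨fun i hi => ?_, ?_⟩
  · rw [dif_congr (g := G) (fun t ht => heq (i + t) (by omega)), dif_succ, htop, htop]
    ring
  · rw [dif_congr (g := G) (fun t ht => heq (0 + t) (by omega)), htop]

lemma psum_congr {n a : ℕ} {f g : ℕ → ℤ} (h : ∀ i, i ≤ n → f (a + i) = g (a + i)) :
    psum^[n] f a = psum^[n] g a := by
  induction n generalizing a with
  | zero => simpa using h 0 le_rfl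
  | succ n ih =>
    rw [Function.iterate_succ_apply', Function.iterate_succ_apply']
    simp only [psum]
    rw [ih fun i hi => h i (by omega), ih fun i hi => by
      have := h (i + 1) (by omega)
      rwa [show a + (i + 1) = a + 1 + i by omega] at this]

lemma psum_lin (n : ℕ) (a b : ℤ) (f g : ℕ → ℤ) :
    psum^[n] (fun t => a * f t + b * g t) = fun i => a * psum^[n] f i + b * psum^[n] g i := by
  induction n generalizing f g with
  | zero => simp
  | succ n ih =>
    rw [Function.iterate_succ_apply, Function.iterate_succ_apply, Function.iterate_succ_apply]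
    rw [← ih]
    congr 1
    funext t
    simp only [psum]
    ring

lemma psum_const (n : ℕ) (c : ℤ) : psum^[n] (fun _ => c) = fun _ => 2 ^ n * c := by
  induction n generalizing c with
  | zero => simp
  | succ n ih =>
    rw [Function.iterate_succ_apply]
    have : psum (fun _ => c) = fun _ => 2 * c := by
      funext t
      simp only [psum]
      ring
    rw [this, ih]
    funext t
    ring

lemma psum_alt (n : ℕ) (h : ℕ → ℤ) (i : ℕ) :
    psum^[n] (fun t => (-1) ^ t * h t) i = (-1) ^ n * (-1) ^ i * dif^[n] h i := by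
  induction n generalizing i with
  | zero => simp
  | succ n ih =>
    rw [Function.iterate_succ_apply']
    simp only [psum]
    rw [ih, ih, dif_succ]
    ring

lemma psum_dif (n m : ℕ) (f : ℕ → ℤ) (i : ℕ) :
    dif^[m] (psum^[n] f) i = psum^[n] (dif^[m] f) i := by
  induction n generalizing i with
  | zero => simp
  | succ n ih =>
    rw [Function.iterate_succ_apply', Function.iterate_succ_apply']
    simp only [psum]
    have : psum (psum^[n] f) = fun t => 1 * psum^[n] f t + 1 * (fun u => psum^[n] f (u + 1)) t := by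
      funext t
      simp [psum]
    rw [this, dif_lin, dif_shift, ih, ih]
    ring

end P057
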