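import Vale.Agent.P057.Diff

/-!
Digit vectors in base q, the selection by averaging over translations, and the two lifting
lemmas for sets free of polynomial progressions.
-/

namespace P057

open Finset

/-- `S` contains no window of length `k` of a sequence of exact degree `d`. -/
def Free (k d : ℕ) (S : Finset ℤ) : Prop :=
  ∀ s : ℕ → ℤ, (∀ i, i < k → s i ∈ S) → (∀ i, i + d + 1 < k → dif^[d + 1] s i = 0) →
    dif^[d] s 0 = 0

/-- Every element of `S`, translated by `γ`, has base `q` digits below `m` whose square sum,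
lowered by `δ`, lies in `R`. -/
def Sel (q m D : ℕ) (γ δ : ℤ) (R S : Finset ℤ) : Prop :=
  ∀ t ∈ S, ∃ f : Fin D → ℕ, (∀ l, f l < m) ∧
    ((q : ℤ) ^ D ∣ (∑ l : Fin D, (f l : ℤ) * (q : ℤ) ^ (l : ℕ)) - (t + γ)) ∧
    (∑ l : Fin D, (f l : ℤ) ^ 2) - δ ∈ R

lemma digits_zero {q : ℕ} : ∀ {D : ℕ} (z : Fin D → ℤ), (∀ l, |z l| < q) →
    (q : ℤ) ^ D ∣ ∑ l : Fin D, z l * (q : ℤ) ^ (l : ℕ) → ∀ l, z l = 0 := by
  intro D
  induction D with
  | zero => intro z _ _ l; exact l.elim0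
  | succ D ih =>
    intro z hz hd
    have hq : (0 : ℤ) < q := lt_of_le_of_lt (abs_nonneg _) (hz 0)
    rw [Fin.sum_univ_succ] at hd
    have e : ∑ i : Fin D, z i.succ * (q : ℤ) ^ ((i.succ : Fin (D + 1)) : ℕ)
        = q * ∑ i : Fin D, z i.succ * (q : ℤ) ^ (i : ℕ) := by
      rw [Finset.mul_sum]
      refine Finset.sum_congr rfl fun i _ => ?_
      rw [Fin.val_succ, pow_succ]
      ring
    rw [e] at hd
    simp only [Fin.val_zero, pow_zero, mul_one] at hd
    have h0 : z 0 = 0 := by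
      have h1 : (q : ℤ) ∣ z 0 + q * ∑ i : Fin D, z i.succ * (q : ℤ) ^ (i : ℕ) :=
        dvd_trans (dvd_pow_self _ (Nat.succ_ne_zero D)) hd
      exact Int.eq_zero_of_abs_lt_dvd ((dvd_add_left (dvd_mul_right _ _)).1 h1) (hz 0)
    rw [h0, zero_add, pow_succ'] at hd
    have hd' := (mul_dvd_mul_iff_left hq.ne').1 hd
    intro l
    refine Fin.cases h0 (fun i => ih (fun i => z i.succ) (fun i => hz _) hd' i) l

lemma exists_sel {q m D T T' : ℕ} (hm : m ≤ q) (hq : 0 < q) (hT' : D * m ^ 2 < T')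
    {R : Finset ℤ} (hR : R ⊆ Ico (0 : ℤ) T') :
    ∃ γ δ : ℤ, ∃ S : Finset ℤ, S ⊆ Ico (0 : ℤ) T ∧ Sel q m D γ δ R S ∧
      T * m ^ D * R.card ≤ S.card * (q ^ D * (2 * T')) := by
  classical
  let Φ : (Fin D → Fin m) → ℤ := fun f => ∑ l : Fin D, ((f l : ℕ) : ℤ) * (q : ℤ) ^ (l : ℕ)
  let F : (Fin D → Fin m) → ℤ := fun f => ∑ l : Fin D, ((f l : ℕ) : ℤ) ^ 2
  let dom : Finset (ℤ × ((Fin D → Fin m) × ℤ)) := Ico (0 : ℤ) T ×ˢ (univ ×ˢ R)
  let φ : ℤ × ((Fin D → Fin m) × ℤ) → ℤ × ℤ :=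
    fun x => ((Φ x.2.1 - x.1) % (q : ℤ) ^ D, F x.2.1 - x.2.2)
  let tgt : Finset (ℤ × ℤ) := Ico (0 : ℤ) ((q : ℤ) ^ D) ×ˢ Ico (-(T' : ℤ)) T'
  have hQ : (0 : ℤ) < (q : ℤ) ^ D := pow_pos (by exact_mod_cast hq) D
  have hmaps : ∀ x ∈ dom, φ x ∈ tgt := by
    intro x hx
    simp only [dom, mem_product] at hx
    have hr := hR hx.2.2
    simp only [mem_Ico] at hr
    simp only [tgt, φ, mem_product, mem_Ico]
    refine ⟨⟨Int.emod_nonneg _ hQ.ne', Int.emod_lt_of_pos _ hQ⟩, ?_, ?_⟩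
    · have : (0 : ℤ) ≤ F x.2.1 := Finset.sum_nonneg fun l _ => sq_nonneg _
      linarith [hr.2]
    · have h1 : F x.2.1 ≤ ∑ _l : Fin D, (m : ℤ) ^ 2 := by
        refine Finset.sum_le_sum fun l _ => ?_
        have : ((x.2.1 l : ℕ) : ℤ) ≤ m := by exact_mod_cast (x.2.1 l).isLt.le
        exact pow_le_pow_left₀ (Int.natCast_nonneg _) this 2
      have h2 : (∑ _l : Fin D, (m : ℤ) ^ 2) = ((D * m ^ 2 : ℕ) : ℤ) := by simp
      have h3 : ((D * m ^ 2 : ℕ) : ℤ) < (T' : ℤ) := by exact_mod_cast hT'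
      linarith [hr.1]
  have hne : tgt.Nonempty := by
    refine ⟨(0, -(T' : ℤ)), ?_⟩
    simp only [tgt, mem_product, mem_Ico]
    omega
  obtain ⟨y, _, hmax⟩ := Finset.exists_max_image tgt (fun y => {x ∈ dom | φ x = y}.card) hne
  refine ⟨y.1, y.2, {x ∈ dom | φ x = y}.image Prod.fst, ?_, ?_, ?_⟩
  · intro t ht
    simp only [mem_image, mem_filter, dom, mem_product] at ht
    obtain ⟨x, ⟨⟨hx, _⟩, _⟩, rfl⟩ := ht
    exact hx
  · intro t ht
    simp only [mem_image, mem_filter, dom, mem_product] at ht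
    obtain ⟨x, ⟨⟨_, _, hr⟩, hφ⟩, rfl⟩ := ht
    refine ⟨fun l => (x.2.1 l : ℕ), fun l => (x.2.1 l).isLt, ?_, ?_⟩
    · show (q : ℤ) ^ D ∣ Φ x.2.1 - (x.1 + y.1)
      rw [← hφ]
      rw [show Φ x.2.1 - (x.1 + (φ x).1) = (Φ x.2.1 - x.1) - (Φ x.2.1 - x.1) % (q : ℤ) ^ D by
        simp only [φ]; ring]
      exact Int.dvd_self_sub_emod
    · show F x.2.1 - y.2 ∈ R
      rw [← hφ]
      simpa [φ] using hr
  · have hinj : Set.InjOn Prod.fst (↑(dom.filter fun x => φ x = y) :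
        Set (ℤ × ((Fin D → Fin m) × ℤ))) := by
      intro x hx x' hx' htt
      simp only [coe_filter, Set.mem_ofPred_eq] at hx hx'
      have he : φ x = φ x' := by rw [hx.2, hx'.2]
      simp only [φ, Prod.mk.injEq] at he
      have hd : (q : ℤ) ^ D ∣ Φ x.2.1 - Φ x'.2.1 := by
        have := Int.emod_eq_emod_iff_emod_sub_eq_zero.1 he.1
        rw [htt] at this
        have h2 := Int.dvd_of_emod_eq_zero this
        simpa using h2
      have hz := digits_zero (q := q) (fun l => ((x.2.1 l : ℕ) : ℤ) - ((x'.2.1 l : ℕ) : ℤ)) (fun l => by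
        have := (x.2.1 l).isLt
        have := (x'.2.1 l).isLt
        rw [abs_lt]
        omega) (by
        simpa [Φ, sub_mul, Finset.sum_sub_distrib] using hd)
      have hf : x.2.1 = x'.2.1 := by
        funext l
        have := hz l
        exact Fin.ext (by omega)
      refine Prod.ext htt (Prod.ext hf ?_)
      have := he.2
      rw [hf] at this
      linarith
    rw [Finset.card_image_of_injOn hinj]
    have h1 : dom.card = T * m ^ D * R.card := by
      simp [dom, mul_assoc]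
    have h2 : tgt.card = q ^ D * (2 * T') := by
      have e : ((q : ℤ) ^ D).toNat = q ^ D := by
        rw [← Nat.cast_pow, Int.toNat_natCast]
      simp only [tgt, card_product, Int.card_Ico, sub_zero, e]
      congr 1
      omega
    rw [← h1, ← h2, Finset.card_eq_sum_card_fiberwise hmaps]
    refine le_trans (Finset.sum_le_card_nsmul _ _ _ hmax) ?_
    rw [smul_eq_mul, mul_comm]

lemma dvd_dif {Q : ℤ} {a n : ℕ} {e : ℕ → ℤ} (h : ∀ i, i ≤ n → Q ∣ e (a + i)) :
    Q ∣ dif^[n] e a := by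
  induction n generalizing a with
  | zero => simpa using h 0 le_rfl
  | succ n ih =>
    rw [dif_succ]
    refine dvd_sub (ih fun i hi => ?_) (ih fun i hi => h i (by omega))
    have := h (i + 1) (by omega)
    rwa [show a + (i + 1) = a + 1 + i by omega] at this

/-- The digit sequences attached to a sequence inside a selected set. -/
lemma exists_digits {q m D k : ℕ} {γ δ : ℤ} {R S : Finset ℤ} (hS : Sel q m D γ δ R S)
    (s : ℕ → ℤ) (hs : ∀ i, i < k → s i ∈ S) :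
    ∃ y : Fin D → ℕ → ℤ, (∀ l i, i < k → 0 ≤ y l i ∧ y l i < m) ∧
      (∀ i, i < k → (∑ l, y l i ^ 2) - δ ∈ R) ∧
      (∀ n a, 1 ≤ n → a + n < k → (q : ℤ) ^ D ∣
        (∑ l : Fin D, dif^[n] (y l) a * (q : ℤ) ^ (l : ℕ)) - dif^[n] s a) := by
  classical
  choose f hf using fun i : {i : ℕ // i < k} => hS (s i) (hs i i.2)
  let y : Fin D → ℕ → ℤ := fun l i => if h : i < k then (f ⟨i, h⟩ l : ℤ) else 0
  refine ⟨y, fun l i hi => ?_, fun i hi => ?_, fun n a hn ha => ?_⟩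
  · simp only [y, dif_pos hi]
    exact ⟨Int.natCast_nonneg _, by exact_mod_cast (hf ⟨i, hi⟩).1 l⟩
  · simp only [y, dif_pos hi]
    exact (hf ⟨i, hi⟩).2.2
  · let e : ℕ → ℤ := fun i => (∑ l : Fin D, (q : ℤ) ^ (l : ℕ) * y l i) - (s i + γ)
    have he : ∀ i, i ≤ n → (q : ℤ) ^ D ∣ e (a + i) := by
      intro i hi
      have hik : a + i < k := by omega
      simp only [e, y, dif_pos hik]
      have := (hf ⟨a + i, hik⟩).2.1
      simpa [mul_comm] using this
    have h1 := dvd_dif he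
    have h2 : dif^[n] e a
        = (∑ l : Fin D, dif^[n] (y l) a * (q : ℤ) ^ (l : ℕ)) - dif^[n] s a := by
      have : e = fun i => 1 * (∑ l : Fin D, (q : ℤ) ^ (l : ℕ) * y l i)
          + (-1) * (1 * s i + 1 * (fun _ => γ) i) := by
        funext i
        simp only [e]
        ring
      rw [this, dif_lin, dif_lin, dif_const hn, dif_sum]
      simp only [dif_smul, one_mul, mul_zero, add_zero, neg_one_mul, ← sub_eq_add_neg]
      refine congrArg (· - _) (Finset.sum_congr rfl fun l _ => ?_)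
      rw [mul_comm]
    rwa [h2] at h1

lemma abs_lt_of_bound {q m P : ℕ} (hP : 0 < P) (hmq : P * m ≤ q) {z : ℤ}
    (hz : 2 * |z| ≤ 2 * (P : ℤ) * ((m : ℤ) - 1)) : |z| < q := by
  have h1 : ((P : ℤ) * m) ≤ q := by exact_mod_cast hmq
  have h2 : (0 : ℤ) < P := by exact_mod_cast hP
  nlinarith

/-- Bound on a difference of digits. -/
lemma dif_digit_bound {n a m : ℕ} (hn : 1 ≤ n) {f : ℕ → ℤ}
    (h : ∀ i, i ≤ n → 0 ≤ f (a + i) ∧ f (a + i) < m) :
    2 * |dif^[n] f a| ≤ 2 ^ n * ((m : ℤ) - 1) := by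
  have h1 := dif_abs_le (n := n) (a := a)
    (f := fun t => 2 * f t + (-1) * (fun _ => (m : ℤ) - 1) t) (M := (m : ℤ) - 1) (fun i hi => by
      have := h i hi
      rw [abs_le]
      simp only
      constructor <;> linarith)
  rw [dif_lin, dif_const hn, mul_zero, add_zero, abs_mul] at h1
  simpa using h1

/-- Lifting from degree `2 d` to degree `d`. -/
lemma free_step {k d q m D T : ℕ} (hd : 1 ≤ d) (hk : 2 * d < k) (hm : 2 ^ d * m ≤ q)
    (hQ : 2 ^ d * T ≤ q ^ D) {γ δ : ℤ} {R S : Finset ℤ} (hR : Free k (2 * d) R)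
    (hST : S ⊆ Ico (0 : ℤ) T) (hS : Sel q m D γ δ R S) : Free k d S := by
  intro s hs hlin
  obtain ⟨y, hy, hyR, hyd⟩ := exists_digits hS s hs
  have hdeg : ∀ l, ∀ i, i + d + 1 < k → dif^[d + 1] (y l) i = 0 := by
    intro l i hi
    have hdiv := hyd (d + 1) i (by omega) (by omega)
    rw [hlin i hi, sub_zero] at hdiv
    refine digits_zero (fun l => dif^[d + 1] (y l) i) (fun l => ?_) hdiv l
    refine abs_lt_of_bound (Nat.two_pow_pos d) hm ?_
    refine le_trans (dif_digit_bound (by omega) fun t ht => hy l (i + t) (by omega)) (le_of_eq ?_)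
    push_cast
    ring
  have hss := dif_sumsq Finset.univ hk y (fun l _ => hdeg l)
  let fR : ℕ → ℤ := fun t => 1 * (∑ l, y l t ^ 2) + (-1) * (fun _ => δ) t
  have hfR : ∀ n a, 1 ≤ n → dif^[n] fR a = dif^[n] (fun t => ∑ l, y l t ^ 2) a := by
    intro n a hn
    simp only [fR]
    rw [dif_lin, dif_const hn]
    ring
  have htop := hR fR (fun i hi => by simpa [fR, sub_eq_add_neg] using hyR i hi)
    (fun i hi => by rw [hfR _ _ (by omega)]; exact hss.1 i hi)
  rw [hfR _ _ (by omega), hss.2] at htop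
  have hc : ((2 * d).choose d : ℤ) ≠ 0 := by
    exact_mod_cast (Nat.choose_pos (by omega : d ≤ 2 * d)).ne'
  have hz : ∀ l, dif^[d] (y l) 0 = 0 := by
    intro l
    have h1 := (Finset.sum_eq_zero_iff_of_nonneg (fun i _ => sq_nonneg (dif^[d] (y i) 0))).1
      ((mul_eq_zero.1 htop).resolve_left hc) l (Finset.mem_univ l)
    simpa using h1
  have hdiv := hyd d 0 hd (by omega)
  simp only [hz, zero_mul, Finset.sum_const_zero, zero_sub, dvd_neg] at hdiv
  refine Int.eq_zero_of_abs_lt_dvd hdiv ?_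
  have hb := dif_digit_bound (n := d) (a := 0) (m := T) hd (f := s) (fun i hi => by
    have := hST (hs (0 + i) (by omega))
    simpa using this)
  have h1 : ((2 : ℤ) ^ d * T) ≤ (q : ℤ) ^ D := by exact_mod_cast hQ
  have h2 : (0 : ℤ) < 2 ^ d := pow_pos (by norm_num) d
  nlinarith [abs_nonneg (dif^[d] s 0)]

end P057
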