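import Vale.Agent.P057.Base
import Vale.Agent.P057.Asymp

/-!
Iteration of the lifting steps and passage to sets of natural numbers.
-/

namespace P057

open Finset Filter Real

lemma has_base {j k : ℕ} (hj : 1 ≤ j) (hk : 3 * j + 2 ≤ k) :
    Has (Free k j) (2 * Real.log ((j + 1).choose ((j + 1) / 2))) 2 := by
  have hP : 2 ≤ (j + 1).choose ((j + 1) / 2) := by
    have h := Nat.choose_le_middle 1 (j + 1)
    rw [Nat.choose_one_right] at h
    omega
  have h := has_step (fun R => R = {0}) (Free k j) hP (Nat.one_le_two_pow (n := j + 1))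
    one_pos le_rfl (fun q m D T γ δ R S hm hQ hR hST hS => by
      subst hR
      exact free_base hj hk hm hQ hST hS) has_singleton
  simpa using h

lemma has_double {d k : ℕ} (hd : 1 ≤ d) (hk : 2 * d < k) {X : ℝ} (hX : 0 < X) {r : ℕ}
    (hr : 1 ≤ r) (h : Has (Free k (2 * d)) X r) :
    Has (Free k d) (2 * ((d : ℝ) * Real.log 2) * X) (r + 1) := by
  have hP : 2 ≤ 2 ^ d := Nat.le_self_pow (by omega) 2
  have h' := has_step (Free k (2 * d)) (Free k d) hP (Nat.one_le_two_pow (n := d)) hX hr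
    (fun q m D T γ δ R S hm hQ hR hST hS => free_step hd hk hm hQ hR hST hS) h
  simpa using h'

lemma has_chain {k : ℕ} : ∀ (i : ℕ) (X : ℝ) (r : ℕ), 0 < X → 1 ≤ r → 2 ^ i < k →
    Has (Free k (2 ^ i)) X r →
      Has (Free k 1) (X * ∏ t ∈ range i, (2 ^ (t + 1) * Real.log 2)) (r + i) := by
  intro i
  induction i with
  | zero => intro X r _ _ _ h; simpa using h
  | succ i ih =>
    intro X r hX hr hk h
    have hk' : 2 * 2 ^ i < k := by rwa [← pow_succ']
    rw [pow_succ'] at h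
    have h1 := has_double Nat.one_le_two_pow hk' hX hr h
    have hlog : 0 < Real.log 2 := Real.log_pos one_lt_two
    have h2 := ih _ (r + 1) (by positivity) (by omega) (by omega) h1
    have e : X * ∏ t ∈ range (i + 1), (2 ^ (t + 1) * Real.log 2)
        = 2 * (((2 ^ i : ℕ) : ℝ) * Real.log 2) * X * ∏ t ∈ range i, (2 ^ (t + 1) * Real.log 2) := by
      rw [Finset.prod_range_succ]
      push_cast
      ring
    rw [e, show r + (i + 1) = r + 1 + i by omega]
    exact h2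

lemma prod_pow_log (i : ℕ) (l : ℝ) :
    (∏ t ∈ range i, (2 ^ (t + 1) * l)) ^ 2 = 2 ^ (i * (i + 1)) * (l ^ i) ^ 2 := by
  induction i with
  | zero => simp
  | succ i ih =>
    rw [Finset.prod_range_succ, mul_pow, ih, show (i + 1) * (i + 1 + 1) = i * (i + 1) + 2 * (i + 1)
      by ring, pow_add, pow_succ l i]
    ring

/-- The final constant as a multiple of the previously known one. -/
lemma const_eq {n : ℕ} (hn : 2 ≤ n) {P : ℝ} (hP : 0 ≤ P) :
    (2 * P * ∏ t ∈ range (n - 2), (2 ^ (t + 1) * Real.log 2)) ^ ((n : ℝ)⁻¹)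
      = 2 ^ (((n : ℝ) - 1) / 2) * Real.log 2 ^ (((n : ℝ) - 1) / n)
        * (P / (Real.log 2 * 2 ^ (n - 2))) ^ ((1 : ℝ) / n) := by
  obtain ⟨i, rfl⟩ : ∃ i, n = i + 2 := ⟨n - 2, by omega⟩
  simp only [Nat.add_sub_cancel]
  have hl : 0 < Real.log 2 := Real.log_pos one_lt_two
  set Pr' := ∏ t ∈ range i, (2 ^ (t + 1) * Real.log 2) with hPr
  have hPr0 : 0 ≤ Pr' := Finset.prod_nonneg fun t _ => by positivity
  set A : ℝ := 2 ^ ((((i + 2 : ℕ) : ℝ) - 1) / 2) * Real.log 2 ^ ((((i + 2 : ℕ) : ℝ) - 1) / (i + 2 : ℕ))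
    * (P / (Real.log 2 * 2 ^ i)) ^ ((1 : ℝ) / (i + 2 : ℕ)) with hA
  have hA0 : 0 ≤ A := by positivity
  have hn0 : ((i + 2 : ℕ) : ℝ) ≠ 0 := by positivity
  have e1 : ((2 : ℝ) ^ ((((i + 2 : ℕ) : ℝ) - 1) / 2)) ^ (2 * (i + 2)) = 2 ^ ((i + 1) * (i + 2)) := by
    rw [← Real.rpow_natCast ((2 : ℝ) ^ _), ← Real.rpow_mul (by norm_num),
      ← Real.rpow_natCast 2 ((i + 1) * (i + 2))]
    congr 1
    push_cast
    ring
  have e2 : (Real.log 2 ^ ((((i + 2 : ℕ) : ℝ) - 1) / (i + 2 : ℕ))) ^ (i + 2)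
      = Real.log 2 ^ (i + 1) := by
    rw [← Real.rpow_natCast (Real.log 2 ^ _), ← Real.rpow_mul hl.le,
      ← Real.rpow_natCast (Real.log 2) (i + 1)]
    congr 1
    field_simp
    push_cast
    ring
  have e3 : ((P / (Real.log 2 * 2 ^ i)) ^ ((1 : ℝ) / (i + 2 : ℕ))) ^ (i + 2)
      = P / (Real.log 2 * 2 ^ i) := by
    rw [one_div, Real.rpow_inv_natCast_pow (by positivity) (by omega)]
  have hrhs : (2 * P * Pr') ^ 2 = 4 * P ^ 2 * (2 ^ (i * (i + 1)) * (Real.log 2 ^ i) ^ 2) := by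
    rw [mul_pow (2 * P), hPr, prod_pow_log, mul_pow]
    norm_num
  have hlhs : (A ^ (i + 2)) ^ 2
      = ((2 : ℝ) ^ ((((i + 2 : ℕ) : ℝ) - 1) / 2)) ^ (2 * (i + 2))
        * ((Real.log 2 ^ ((((i + 2 : ℕ) : ℝ) - 1) / (i + 2 : ℕ))) ^ (i + 2)) ^ 2
        * (((P / (Real.log 2 * 2 ^ i)) ^ ((1 : ℝ) / (i + 2 : ℕ))) ^ (i + 2)) ^ 2 := by
    rw [hA]
    ring
  have hsq : (A ^ (i + 2)) ^ 2 = (2 * P * Pr') ^ 2 := by
    rw [hlhs, hrhs, e1, e2, e3]
    field_simp
    ring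
  have hnn : A ^ (i + 2) = 2 * P * Pr' :=
    (pow_left_inj₀ (by positivity) (by positivity) two_ne_zero).1 hsq
  rw [← hnn, Real.pow_rpow_inv_natCast hA0 (by omega)]

lemma choose_lt_pow : ∀ j : ℕ, 2 ≤ j → (j + 1).choose ((j + 1) / 2) < 2 ^ j := by
  intro j hj
  induction j, hj using Nat.le_induction with
  | base => decide
  | succ j hj ih =>
    obtain ⟨h, hh⟩ : ∃ h, (j + 1 + 1) / 2 = h + 1 := ⟨(j + 1 + 1) / 2 - 1, by omega⟩
    rw [hh, Nat.choose_succ_succ, pow_succ]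
    have h1 := Nat.choose_le_middle h (j + 1)
    have h2 := Nat.choose_le_middle h.succ (j + 1)
    omega

/-- The constant in front of the root is a strict improvement. -/
lemma ratio_lt_one {n : ℕ} (hn : 3 ≤ n) :
    0 < Real.logb 2 ((2 ^ (n - 2) + 1).choose ((2 ^ (n - 2) + 1) / 2)) / 2 ^ (n - 2) ∧
    Real.logb 2 ((2 ^ (n - 2) + 1).choose ((2 ^ (n - 2) + 1) / 2)) / 2 ^ (n - 2) < 1 := by
  have hj : 2 ≤ 2 ^ (n - 2) := Nat.le_self_pow (by omega) 2
  have h1 := choose_lt_pow _ hj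
  have h2 : 1 < (2 ^ (n - 2) + 1).choose ((2 ^ (n - 2) + 1) / 2) := by
    have h := Nat.choose_le_middle 1 (2 ^ (n - 2) + 1)
    rw [Nat.choose_one_right] at h
    omega
  constructor
  · exact div_pos (Real.logb_pos one_lt_two (by exact_mod_cast h2)) (by positivity)
  · rw [div_lt_one (by positivity), Real.logb_lt_iff_lt_rpow one_lt_two (by positivity)]
    rw [show ((2 : ℝ) ^ (n - 2)) = ((2 ^ (n - 2) : ℕ) : ℝ) by push_cast; rfl, Real.rpow_natCast]
    exact_mod_cast h1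

/-- Sets of natural numbers without progressions from free sets of degree one. -/
lemma to_nat {k N : ℕ} {S : Finset ℤ} (hS : S ⊆ Finset.Ico (0 : ℤ) N)
    (hf : Free k 1 S) :
    ∃ A : Finset ℕ, A ⊆ Finset.Icc 1 N ∧ A.card = S.card ∧
      ∀ a d : ℕ, 0 < d → ∃ i < k, a + i * d ∉ A := by
  refine ⟨S.image fun t => (t + 1).toNat, ?_, ?_, ?_⟩
  · intro a ha
    obtain ⟨t, ht, rfl⟩ := Finset.mem_image.1 ha
    have := Finset.mem_Ico.1 (hS ht)
    exact Finset.mem_Icc.2 ⟨by omega, by omega⟩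
  · refine Finset.card_image_of_injOn fun x hx y hy hxy => ?_
    have h1 := Finset.mem_Ico.1 (hS hx)
    have h2 := Finset.mem_Ico.1 (hS hy)
    omega
  · intro a d hd
    by_contra hall
    push Not at hall
    let s : ℕ → ℤ := fun i => (a : ℤ) + (i : ℤ) * d - 1
    have hs : ∀ i, i < k → s i ∈ S := by
      intro i hi
      obtain ⟨t, ht, hte⟩ := Finset.mem_image.1 (hall i hi)
      have := Finset.mem_Ico.1 (hS ht)
      have he : ((t + 1).toNat : ℤ) = ((a + i * d : ℕ) : ℤ) := by rw [hte]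
      rw [Int.toNat_of_nonneg (by omega)] at he
      push_cast at he
      have : s i = t := by simp only [s]; linarith
      rwa [this]
    have h1 : ∀ i, dif^[1] s i = d := fun i => by
      simp only [Function.iterate_one, dif_apply, s]
      push_cast
      ring
    have h0 := hf s hs fun i _ => by rw [dif_succ, h1, h1, sub_self]
    rw [h1] at h0
    omega

theorem main_bound {n k : ℕ} (hn : 3 ≤ n) (hk : 3 * 2 ^ (n - 2) + 2 ≤ k) (C : ℝ)
    (hC : (n : ℝ) * 2 ^ (((n : ℝ) - 1) / 2) * Real.log 2 ^ (((n : ℝ) - 1) / n)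
      * (Real.logb 2 ((2 ^ (n - 2) + 1).choose ((2 ^ (n - 2) + 1) / 2)) / 2 ^ (n - 2))
          ^ ((1 : ℝ) / n) < C) :
    ∀ᶠ N : ℕ in atTop, ∃ A : Finset ℕ, A ⊆ Finset.Icc 1 N ∧
      (N : ℝ) * Real.exp (-C * Real.log N ^ ((1 : ℝ) / n)) ≤ A.card ∧
      ∀ a d : ℕ, 0 < d → ∃ i < k, a + i * d ∉ A := by
  set P := (2 ^ (n - 2) + 1).choose ((2 ^ (n - 2) + 1) / 2) with hP
  have hP2 : 2 ≤ P := by
    have h := Nat.choose_le_middle 1 (2 ^ (n - 2) + 1)
    rw [Nat.choose_one_right] at h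
    have := Nat.one_le_two_pow (n := n - 2)
    omega
  have hlP : 0 < Real.log P := Real.log_pos (by exact_mod_cast (show 1 < P by omega))
  have hb := has_base (k := k) (Nat.one_le_two_pow (n := n - 2)) hk
  have hc := has_chain (n - 2) (2 * Real.log P) 2 (by positivity) (by omega) (by omega) hb
  rw [show 2 + (n - 2) = n by omega] at hc
  have hC' : (n : ℝ) * (2 * Real.log P * ∏ t ∈ range (n - 2), (2 ^ (t + 1) * Real.log 2))
      ^ ((n : ℝ)⁻¹) < C := by
    refine lt_of_eq_of_lt ?_ hC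
    rw [const_eq (by omega) hlP.le, Real.logb, div_div]
    ring
  filter_upwards [hc C hC'] with N hN
  obtain ⟨S, hS, hf, hcard⟩ := hN
  obtain ⟨A, hA, hAc, hAP⟩ := to_nat hS hf
  refine ⟨A, hA, ?_, hAP⟩
  rw [hAc, one_div]
  exact hcard

theorem main_lt {n : ℕ} (hn : 3 ≤ n) :
    (n : ℝ) * 2 ^ (((n : ℝ) - 1) / 2) * Real.log 2 ^ (((n : ℝ) - 1) / n)
      * (Real.logb 2 ((2 ^ (n - 2) + 1).choose ((2 ^ (n - 2) + 1) / 2)) / 2 ^ (n - 2))
          ^ ((1 : ℝ) / n)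
    < (n : ℝ) * 2 ^ (((n : ℝ) - 1) / 2) * Real.log 2 ^ (((n : ℝ) - 1) / n) := by
  have h := ratio_lt_one hn
  have hn0 : (0 : ℝ) < n := by exact_mod_cast (show 0 < n by omega)
  have hlog : 0 < Real.log 2 := Real.log_pos one_lt_two
  exact mul_lt_of_lt_one_right (by positivity)
    (Real.rpow_lt_one h.1.le h.2 (by positivity))

end P057
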