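import Vale.Agent.P057.Base

/-!
Lifting steps in which digit sequences may also carry an alternating component of bounded degree.
-/

namespace P057

open Finset

/-- `S` contains no window of a sequence killed by `d + 1` differences and `a` pair sums
whose top coefficient is nonzero. -/
def FreeA (k d a : ℕ) (S : Finset ℤ) : Prop :=
  ∀ s : ℕ → ℤ, (∀ i, i < k → s i ∈ S) →
    (∀ i, i + d + 1 + a < k → dif^[d + 1] (psum^[a] s) i = 0) →
      dif^[d] (psum^[a] s) 0 = 0

lemma psum_smul (n : ℕ) (c : ℤ) (f : ℕ → ℤ) :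
    psum^[n] (fun t => c * f t) = fun i => c * psum^[n] f i := by
  have := psum_lin n c 0 f f
  simpa using this

lemma psum_sum {α : Type*} (s : Finset α) (F : α → ℕ → ℤ) (n i : ℕ) :
    psum^[n] (fun t => ∑ l ∈ s, F l t) i = ∑ l ∈ s, psum^[n] (F l) i := by
  induction n generalizing i with
  | zero => simp
  | succ n ih =>
    simp only [Function.iterate_succ_apply', psum, ih, Finset.sum_add_distrib]

lemma dvd_psum {Q : ℤ} {a n : ℕ} {e : ℕ → ℤ} (h : ∀ i, i ≤ n → Q ∣ e (a + i)) :
    Q ∣ psum^[n] e a := by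
  induction n generalizing a with
  | zero => simpa using h 0 le_rfl
  | succ n ih =>
    rw [Function.iterate_succ_apply']
    refine dvd_add (ih fun i hi => h i (by omega)) (ih fun i hi => ?_)
    have := h (i + 1) (by omega)
    rwa [show a + (i + 1) = a + 1 + i by omega] at this

lemma dif_altmul (n : ℕ) (u : ℕ → ℤ) (i : ℕ) :
    dif^[n] (fun t => (-1) ^ t * u t) i = (-1) ^ n * (-1) ^ i * psum^[n] u i := by
  induction n generalizing i with
  | zero => simp
  | succ n ih =>
    rw [dif_succ, ih, ih, Function.iterate_succ_apply']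
    simp only [psum]
    ring

lemma psum_inverse : ∀ (e : ℕ) (h : ℕ → ℤ), (∀ i, dif^[e + 1] h i = 0) →
    ∃ u : ℕ → ℤ, (∀ i, dif^[e + 1] u i = 0) ∧ psum u = fun i => 2 ^ (e + 1) * h i := by
  intro e
  induction e with
  | zero =>
    intro h hh
    refine ⟨h, hh, ?_⟩
    funext i
    have := hh i
    simp only [zero_add, Function.iterate_one, dif_apply] at this
    simp only [psum, zero_add, pow_one]
    linarith
  | succ e ih =>
    intro h hh
    obtain ⟨v, hv, hpv⟩ := ih (dif h) fun i => by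
      rw [← Function.iterate_succ_apply]; exact hh i
    refine ⟨fun t => 2 ^ (e + 1) * h t + (-1) * v t, fun i => ?_, ?_⟩
    · rw [dif_lin, hh, dif_higher hv (Nat.le_succ _)]
      ring
    · funext i
      have := congrFun hpv i
      simp only [psum, dif_apply] at this ⊢
      rw [pow_succ 2 (e + 1)]
      linarith

lemma psum_inverse_iter : ∀ (n e : ℕ) (h : ℕ → ℤ), (∀ i, dif^[e + 1] h i = 0) →
    ∃ u : ℕ → ℤ, (∀ i, dif^[e + 1] u i = 0) ∧
      psum^[n] u = fun i => (2 ^ (e + 1)) ^ n * h i := by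
  intro n
  induction n with
  | zero => intro e h hh; exact ⟨h, hh, by simp⟩
  | succ n ih =>
    intro e h hh
    obtain ⟨v, hv, hpv⟩ := psum_inverse e h hh
    obtain ⟨u, hu, hpu⟩ := ih e v hv
    refine ⟨u, hu, ?_⟩
    rw [Function.iterate_succ_apply', hpu]
    funext i
    have := congrFun hpv i
    simp only [psum] at this ⊢
    rw [← mul_add, this]
    ring

/-- Splitting a window sequence into a polynomial part and an alternating part. -/
lemma split_window {k d a : ℕ} {y : ℕ → ℤ}
    (h : ∀ i, i + d + 1 + (a + 1) < k → dif^[d + 1] (psum^[a + 1] y) i = 0) :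
    ∃ (M : ℤ) (g u : ℕ → ℤ), M ≠ 0 ∧ (∀ i, dif^[d + 1] g i = 0) ∧
      (∀ i, dif^[a + 1] u i = 0) ∧ ∀ i, i < k → M * y i = g i + (-1) ^ i * u i := by
  let h' : ℕ → ℤ := fun t => (-1) ^ t * dif^[d + 1] y t
  have hsq : ∀ t : ℕ, ((-1 : ℤ) ^ t) * (-1) ^ t = 1 := fun t => by rw [← mul_pow]; simp
  have hc : dif^[d + 1] y = fun t => (-1) ^ t * h' t := by
    funext t
    simp only [h']
    rw [← mul_assoc, hsq, one_mul]
  have hh : ∀ i, i + a + 1 < k - (d + 1) → dif^[a + 1] h' i = 0 := by
    intro i hi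
    have h1 := h i (by omega)
    rw [psum_dif, hc, psum_alt] at h1
    rcases mul_eq_zero.1 h1 with h2 | h2
    · exact absurd h2 (mul_ne_zero (pow_ne_zero _ (by norm_num)) (pow_ne_zero _ (by norm_num)))
    · exact h2
  obtain ⟨u, hu, hpu⟩ := psum_inverse_iter (d + 1) a
    (fun t => (-1) ^ (d + 1) * newt a h' t) (fun i => by rw [dif_smul, newt_dif, mul_zero])
  let M : ℤ := (2 ^ (a + 1)) ^ (d + 1)
  let p : ℕ → ℤ := fun t => M * y t + (-1) * ((-1) ^ t * u t)
  have hp : ∀ i, i + d + 1 < k → dif^[d + 1] p i = 0 := by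
    intro i hi
    simp only [p]
    rw [dif_lin _ M (-1) y (fun t => (-1) ^ t * u t), dif_altmul, hpu, hc]
    simp only
    rw [newt_eq hh (show i < k - (d + 1) by omega)]
    linear_combination (- M * (-1) ^ i * h' i) * hsq (d + 1)
  refine ⟨M, newt d p, u, by positivity, newt_dif d p, hu, fun i hi => ?_⟩
  rw [newt_eq hp hi]
  simp only [p]
  ring

lemma pair_sum_bound {n i : ℕ} {f : ℕ → ℤ} {M : ℤ} (h : ∀ t, t ≤ 2 * n + 2 → |f (i + t)| ≤ M) :
    |dif^[n + 2] (psum^[n] f) i| ≤ 2 * ((2 : ℤ) ^ n + n.choose (n / 2)) * M := by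
  have key : ∀ (n : ℕ) (g : ℕ → ℤ) (i : ℕ),
      dif^[n] (psum^[n] g) i = dif^[n] (fun t => g (i + 2 * t)) 0 := by
    intro n
    induction n with
    | zero => intro g i; simp
    | succ n ih =>
      intro g i
      have e : dif (psum^[n + 1] g) = psum^[n] (dif (psum g)) := funext fun t => by
        have := psum_dif n 1 (psum g) t
        rw [Function.iterate_one] at this
        rw [Function.iterate_succ_apply]
        exact this
      rw [Function.iterate_succ_apply dif, e, ih, Function.iterate_succ_apply dif]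
      refine congrArg (fun w => dif^[n] w 0) (funext fun t => ?_)
      simp only [psum, dif_apply]
      rw [show i + 2 * (t + 1) = i + 2 * t + 1 + 1 by omega]
      ring
  have e0 : dif^[n + 2] (psum^[n] f) i = dif^[n] (psum^[n] (dif^[2] f)) i := by
    rw [Function.iterate_add_apply,
      show dif^[2] (psum^[n] f) = psum^[n] (dif^[2] f) from funext (psum_dif n 2 f)]
  have e1 : dif^[n] (psum^[n] (dif^[2] f)) i
      = (dif^[n] (fun t => f (i + 2 * t)) 0 + dif^[n] (fun t => f (i + 2 * t)) 1)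
        + (-2) * dif^[n] (fun t => f (i + 2 * t + 1)) 0 := by
    rw [key]
    have : (fun t => dif^[2] f (i + 2 * t))
        = fun t => 1 * ((fun u => f (i + 2 * u)) t + (fun u => f (i + 2 * u)) (t + 1))
            + (-2) * (fun u => f (i + 2 * u + 1)) t := by
      funext t
      simp only [dif_succ, Function.iterate_zero_apply]
      rw [show i + 2 * (t + 1) = i + 2 * t + 1 + 1 by omega]
      ring
    rw [this, dif_lin]
    have e2 := dif_lin n 1 1 (fun u => f (i + 2 * u)) (fun u => f (i + 2 * (u + 1))) 0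
    simp only [one_mul] at e2 ⊢
    rw [e2, dif_shift n (fun u => f (i + 2 * u))]
  rw [e0, e1]
  have b1 := pair_bound (n := n) (a := 0) (f := fun t => f (i + 2 * t)) (M := M)
    (fun t ht => h _ (by omega))
  have b2 := dif_abs_le (n := n) (a := 0) (f := fun t => f (i + 2 * t + 1)) (M := M)
    (fun t ht => by
      simpa [add_assoc] using h (2 * (0 + t) + 1) (by omega))
  refine le_trans (abs_add_le _ _) ?_
  rw [abs_mul]
  simp only [zero_add] at b1
  norm_num at b1 b2 ⊢
  linarith

/-- Square sums of split sequences. -/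
lemma nest_square {ι : Type*} [Fintype ι] {k d a a' : ℕ} (had : a + 1 ≤ d)
    (ha' : d + (a + 1) ≤ a') (hk : 2 * d + a' < k) (y : ι → ℕ → ℤ)
    (h : ∀ l i, i + d + 1 + (a + 1) < k → dif^[d + 1] (psum^[a + 1] (y l)) i = 0) :
    (∀ i, i + 2 * d + 1 + a' < k →
        dif^[2 * d + 1] (psum^[a'] (fun t => ∑ l, y l t ^ 2)) i = 0) ∧
      (dif^[2 * d] (psum^[a'] (fun t => ∑ l, y l t ^ 2)) 0 = 0 →
        ∀ l, dif^[d] (psum^[a + 1] (y l)) 0 = 0) := by
  classical
  choose M g u hM hg hu hy using fun l => split_window (h l)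
  let K : ι → ℤ := fun l => ∏ x ∈ Finset.univ.erase l, M x
  let N : ℤ := ∏ x, M x
  have hN : N ≠ 0 := Finset.prod_ne_zero_iff.2 fun x _ => hM x
  have hKM : ∀ l, K l * M l = N := fun l => Finset.prod_erase_mul _ _ (Finset.mem_univ l)
  have hK : ∀ l, K l ≠ 0 := fun l => left_ne_zero_of_mul (by rw [hKM l]; exact hN)
  let G1 : ℕ → ℤ := fun t => ∑ l, (K l ^ 2 * (g l t * g l t) + K l ^ 2 * (u l t * u l t))
  let G2 : ℕ → ℤ := fun t => ∑ l, 2 * K l ^ 2 * (g l t * u l t)
  have hmain : ∀ t, t < k →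
      N ^ 2 * (∑ l, y l t ^ 2) = 1 * G1 t + 1 * (fun v => (-1) ^ v * G2 v) t := by
    intro t ht
    simp only [G1, G2, one_mul, Finset.mul_sum, ← Finset.sum_add_distrib]
    refine Finset.sum_congr rfl fun l _ => ?_
    have hsq : ((-1 : ℤ) ^ t) * (-1) ^ t = 1 := by rw [← mul_pow]; simp
    have e : N * y l t = K l * (g l t + (-1) ^ t * u l t) := by
      rw [← hy l t ht, ← hKM l]; ring
    calc N ^ 2 * y l t ^ 2 = (N * y l t) ^ 2 := by ring
      _ = _ := by rw [e]; linear_combination (K l ^ 2 * u l t * u l t) * hsq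
  have hG2 : psum^[a'] (fun v => (-1) ^ v * G2 v) = fun _ => (0 : ℤ) := by
    funext i
    rw [psum_alt]
    have h0 : dif^[a'] G2 i = 0 := by
      simp only [G2]
      rw [dif_sum]
      refine Finset.sum_eq_zero fun l _ => ?_
      rw [dif_smul]
      have hz : ∀ v, dif^[d + a + 1] (fun t => g l t * u l t) v = 0 := fun v => by
        have c := dif_mul (d + a) d a _ _ rfl (hg l) (hu l)
        rw [dif_succ, c, c, sub_self]
      rw [dif_higher hz (by omega), mul_zero]
    rw [h0, mul_zero]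
  let W : ℤ := ∑ l, ((2 * d).choose d : ℤ) * (K l * dif^[d] (g l) 0) ^ 2
  have hG1 : dif^[2 * d] G1 = fun _ => W := by
    funext i
    simp only [G1, W]
    rw [dif_sum]
    refine Finset.sum_congr rfl fun l _ => ?_
    rw [dif_lin, dif_mul (2 * d) d d _ _ (by omega) (hg l) (hg l) i]
    have hz : ∀ v, dif^[2 * a + 1] (fun t => u l t * u l t) v = 0 := fun v => by
      have c := dif_mul (2 * a) a a _ _ (by omega) (hu l) (hu l)
      rw [dif_succ, c, c, sub_self]
    rw [dif_higher hz (by omega)]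
    ring
  have htop : ∀ i, dif^[2 * d]
      (psum^[a'] (fun t => 1 * G1 t + 1 * (fun v => (-1) ^ v * G2 v) t)) i = 2 ^ a' * W := by
    intro i
    rw [psum_lin, hG2, dif_lin, psum_dif, hG1, psum_const, dif_zero]
    ring
  have hwin : ∀ n i, i + n + a' < k →
      N ^ 2 * dif^[n] (psum^[a'] (fun t => ∑ l, y l t ^ 2)) i
        = dif^[n] (psum^[a'] (fun t => 1 * G1 t + 1 * (fun v => (-1) ^ v * G2 v) t)) i := by
    intro n i hi
    rw [← dif_smul, ← psum_smul]
    exact dif_congr fun t ht => psum_congr fun v hv => hmain _ (by omega)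
  refine ⟨fun i hi => ?_, fun h0 l => ?_⟩
  · have := hwin (2 * d + 1) i (by omega)
    rw [dif_succ (2 * d), dif_succ (2 * d), htop, htop, sub_self] at this
    rw [dif_succ (2 * d)]
    exact (mul_eq_zero.1 this).resolve_left (pow_ne_zero 2 hN)
  · have h1 := hwin (2 * d) 0 (by omega)
    rw [h0, mul_zero, htop, eq_comm, mul_eq_zero] at h1
    have hW : W = 0 := h1.resolve_left (pow_ne_zero _ (by norm_num))
    have h2 := (Finset.sum_eq_zero_iff_of_nonneg
      (f := fun x => ((2 * d).choose d : ℤ) * (K x * dif^[d] (g x) 0) ^ 2)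
      (fun x _ => mul_nonneg (Int.natCast_nonneg _) (sq_nonneg _))).1 hW l (Finset.mem_univ l)
    have hc0 : ((2 * d).choose d : ℤ) ≠ 0 := by
      exact_mod_cast (Nat.choose_pos (by omega : d ≤ 2 * d)).ne'
    have hg0 : dif^[d] (g l) 0 = 0 := by
      simpa [hK l, (Nat.choose_pos (by omega : d ≤ 2 * d)).ne'] using h2
    have hu0 : psum^[a + 1] (fun v => (-1) ^ v * u l v) = fun _ => (0 : ℤ) := by
      funext i
      rw [psum_alt, hu l i, mul_zero]
    have h3 : M l * dif^[d] (psum^[a + 1] (y l)) 0 = 0 := by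
      rw [← dif_smul, ← psum_smul]
      rw [dif_congr (g := psum^[a + 1] (fun t => 1 * g l t + 1 * (fun v => (-1) ^ v * u l v) t))
        (fun t ht => psum_congr fun v hv => by rw [hy l _ (by omega)]; ring),
        psum_lin, hu0, dif_lin, dif_zero, psum_dif,
        show dif^[d] (g l) = fun _ => (0 : ℤ) from funext fun t => by
          rw [dif_const_of_succ (hg l) t, hg0],
        psum_const]
      ring
    exact (mul_eq_zero.1 h3).resolve_left (hM l)

/-- The nested lifting step, from degree `2 d` to degree `d`. -/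
lemma free_nest {k n q m D T : ℕ} (hk : 4 * (n + 1) ≤ k) (hn : 1 ≤ n)
    (hm : (2 ^ n + n.choose (n / 2)) * m ≤ q) (hQ : 2 ^ (2 * n + 1) * T ≤ q ^ D)
    {γ δ : ℤ} {R S : Finset ℤ} (hR : FreeA k (2 * (n + 1)) (2 * n + 1) R)
    (hST : S ⊆ Ico (0 : ℤ) T) (hS : Sel q m D γ δ R S) : FreeA k (n + 1) n S := by
  intro s hs hlin
  obtain ⟨y, hy, hyR, hyd⟩ := exists_digits hS s hs
  have hydA : ∀ r i, 1 ≤ r → i + r + n < k → (q : ℤ) ^ D ∣
      (∑ l : Fin D, dif^[r] (psum^[n] (y l)) i * (q : ℤ) ^ (l : ℕ))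
        - dif^[r] (psum^[n] s) i := by
    intro r i hr hi
    let e : ℕ → ℤ := fun t =>
      1 * (∑ l : Fin D, (q : ℤ) ^ (l : ℕ) * dif^[r] (y l) t) + (-1) * dif^[r] s t
    have h1 : (q : ℤ) ^ D ∣ psum^[n] e i := dvd_psum fun t ht => by
      have := hyd r (i + t) hr (by omega)
      simpa [e, mul_comm, sub_eq_add_neg] using this
    simp only [e] at h1
    rw [psum_lin] at h1
    simp only [psum_sum, psum_smul, one_mul, neg_one_mul, ← sub_eq_add_neg] at h1
    simpa [psum_dif, mul_comm] using h1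
  have hker : ∀ l i, i + (n + 1) + 1 + n < k → dif^[n + 1 + 1] (psum^[n] (y l)) i = 0 := by
    intro l i hi
    have hd := hydA (n + 1 + 1) i (by omega) (by omega)
    rw [hlin i hi, sub_zero] at hd
    refine digits_zero (fun l => dif^[n + 1 + 1] (psum^[n] (y l)) i) (fun l => ?_) hd l
    refine abs_lt_of_bound (Nat.add_pos_left (Nat.two_pow_pos n) _) hm ?_
    have hb := pair_sum_bound (n := n) (i := i)
      (f := fun t => 2 * y l t + (-1) * (fun _ => (m : ℤ) - 1) t) (M := (m : ℤ) - 1)
      (fun t ht => by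
        have := hy l (i + t) (by omega)
        rw [abs_le]
        simp only
        constructor <;> linarith)
    rw [psum_lin, psum_const, dif_lin, dif_const (by omega), mul_zero, add_zero, abs_mul] at hb
    push_cast
    simpa using hb
  obtain ⟨a, rfl⟩ : ∃ a, n = a + 1 := ⟨n - 1, by omega⟩
  have hsq := nest_square (k := k) (d := a + 1 + 1) (a := a) (a' := 2 * (a + 1) + 1)
    (by omega) (by omega) (by omega) y hker
  let fR : ℕ → ℤ := fun t => 1 * (∑ l, y l t ^ 2) + (-1) * (fun _ => δ) t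
  have hfR : ∀ r i, 1 ≤ r → dif^[r] (psum^[2 * (a + 1) + 1] fR) i
      = dif^[r] (psum^[2 * (a + 1) + 1] (fun t => ∑ l, y l t ^ 2)) i := by
    intro r i hr
    simp only [fR]
    rw [psum_lin, psum_const, dif_lin, dif_const hr]
    ring
  have htop := hR fR (fun i hi => by simpa [fR, sub_eq_add_neg] using hyR i hi)
    (fun i hi => by rw [hfR _ _ (by omega)]; exact hsq.1 i hi)
  rw [hfR _ _ (by omega)] at htop
  have hz := hsq.2 htop
  have hd := hydA (a + 1 + 1) 0 (by omega) (by omega)
  simp only [hz, zero_mul, Finset.sum_const_zero, zero_sub, dvd_neg] at hd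
  refine Int.eq_zero_of_abs_lt_dvd hd ?_
  have hb : ∀ r c t, t + r + c < k →
      |dif^[r] (psum^[c] s) t| ≤ 2 ^ (r + c) * ((T : ℤ) - 1) := by
    intro r c
    induction c generalizing r with
    | zero =>
      intro t ht
      simpa using dif_abs_le (n := r) (a := t) (f := s) (M := (T : ℤ) - 1) (fun i hi => by
        have := Finset.mem_Ico.1 (hST (hs (t + i) (by omega)))
        rw [abs_le]
        constructor <;> linarith)
    | succ c ih =>
      intro t ht
      have e := psum_dif 1 r (psum^[c] s) t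
      simp only [Function.iterate_one] at e
      rw [Function.iterate_succ_apply', e]
      simp only [psum]
      refine le_trans (abs_add_le _ _) ?_
      rw [← add_assoc r c 1, pow_succ]
      linarith [ih r t (by omega), ih r (t + 1) (by omega)]
  have h1 : ((2 : ℤ) ^ (2 * (a + 1) + 1) * T) ≤ (q : ℤ) ^ D := by exact_mod_cast hQ
  have h2 := hb (a + 1 + 1) (a + 1) 0 (by omega)
  rw [show a + 1 + 1 + (a + 1) = 2 * (a + 1) + 1 by omega] at h2
  have h3 : (0 : ℤ) < 2 ^ (2 * (a + 1) + 1) := pow_pos (by norm_num) _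
  nlinarith

lemma free_of_freeA {k : ℕ} (hk : 4 ≤ k) {R : Finset ℤ} (h : FreeA k 2 1 R) : Free k 2 R := by
  intro s hs hlin
  have h1 := h s hs fun i hi => by
    rw [psum_dif, Function.iterate_one]
    simp only [psum]
    rw [hlin i (by omega), hlin (i + 1) (by omega), add_zero]
  rw [psum_dif, Function.iterate_one] at h1
  simp only [psum] at h1
  have h2 := hlin 0 (by omega)
  rw [dif_succ] at h2
  linarith

lemma freeA_singleton (k d a : ℕ) (hd : 1 ≤ d) (hk : d + a < k) : FreeA k d a {0} := by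
  intro s hs _
  have e : dif^[d] (psum^[a] s) 0 = dif^[d] (psum^[a] (fun _ => (0 : ℤ))) 0 :=
    dif_congr fun t ht => psum_congr fun v hv =>
      Finset.mem_singleton.1 (hs _ (by omega))
  rw [e, psum_const]
  exact dif_const hd _ _

end P057
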