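import Vale.Agent.P057.Main
import Vale.Agent.P057.Nest

/-!
The iteration with alternating slack at every level, for windows of length at least 2 ^ n.
-/

namespace P057

open Finset Filter Real

/-- The digit loss at degree `n + 1` when an alternating component is allowed. -/
def lossA (n : ℕ) : ℕ := 2 ^ n + n.choose (n / 2)

lemma lossA_two_le (n : ℕ) : 2 ≤ lossA n := by
  have h1 := Nat.one_le_two_pow (n := n)
  have h2 := Nat.choose_pos (Nat.div_le_self n 2)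
  unfold lossA
  omega

lemma lossA_lt {n : ℕ} (hn : 1 ≤ n) : lossA n < 2 ^ (n + 1) := by
  have := Nat.choose_lt_two_pow n (n / 2) (by omega)
  rw [pow_succ]
  unfold lossA
  omega

lemma has_mono {Q Q' : Finset ℤ → Prop} (h : ∀ S, Q S → Q' S) {X : ℝ} {r : ℕ}
    (hQ : Has Q X r) : Has Q' X r := fun c hc =>
  (hQ c hc).mono fun _ ⟨S, h1, h2, h3⟩ => ⟨S, h1, h S h2, h3⟩

lemma has_top {n k : ℕ} (hn : 1 ≤ n) (hk : 4 * (n + 1) ≤ k) :
    Has (FreeA k (n + 1) n) (2 * Real.log (lossA n)) 2 := by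
  have h := has_step (fun R => R = {0}) (FreeA k (n + 1) n) (lossA_two_le n)
    (Nat.one_le_two_pow (n := 2 * n + 1)) one_pos le_rfl
    (fun q m D T γ δ R S hm hQ hR hST hS => by
      subst hR
      exact free_nest hk hn hm hQ (freeA_singleton k _ _ (by omega) (by omega)) hST hS)
    has_singleton
  simpa using h

lemma has_nest {n k : ℕ} (hn : 1 ≤ n) (hk : 4 * (n + 1) ≤ k) {X : ℝ} (hX : 0 < X) {r : ℕ}
    (hr : 1 ≤ r) (h : Has (FreeA k (2 * (n + 1)) (2 * n + 1)) X r) :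
    Has (FreeA k (n + 1) n) (2 * Real.log (lossA n) * X) (r + 1) :=
  has_step (FreeA k (2 * (n + 1)) (2 * n + 1)) (FreeA k (n + 1) n) (lossA_two_le n)
    (Nat.one_le_two_pow (n := 2 * n + 1)) hX hr
    (fun _ _ _ _ _ _ _ _ hm hQ hR hST hS => free_nest hk hn hm hQ hR hST hS) h

lemma has_nest_chain {k : ℕ} : ∀ (e : ℕ) (X : ℝ) (r : ℕ), 0 < X → 1 ≤ r → 2 ^ (e + 2) ≤ k →
    Has (FreeA k (2 ^ (e + 1)) (2 ^ (e + 1) - 1)) X r →
      Has (FreeA k 2 1) (X * ∏ t ∈ range e, (2 * Real.log (lossA (2 ^ (t + 1) - 1)))) (r + e) := by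
  intro e
  induction e with
  | zero => intro X r _ _ _ h; simpa using h
  | succ e ih =>
    intro X r hX hr hk h
    obtain ⟨n, hn⟩ : ∃ n, 2 ^ (e + 1) = n + 1 := ⟨2 ^ (e + 1) - 1, by
      have := Nat.one_le_two_pow (n := e + 1)
      omega⟩
    have h2 : 2 ≤ 2 ^ (e + 1) := Nat.le_self_pow (by omega) 2
    have p1 : 2 ^ (e + 1 + 1) = 2 * (n + 1) := by rw [pow_succ' 2 (e + 1), hn]
    rw [pow_succ' 2 (e + 1 + 1), p1] at hk
    rw [p1, show 2 * (n + 1) - 1 = 2 * n + 1 by omega] at h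
    have h1 := has_nest (by omega) (by omega) hX hr h
    have hlog : 0 < Real.log (lossA n) := Real.log_pos (by
      exact_mod_cast (show 1 < lossA n by have := lossA_two_le n; omega))
    have h3 := ih (2 * Real.log (lossA n) * X) (r + 1) (by positivity) (by omega)
      (by rw [show e + 2 = e + 1 + 1 by omega, p1]; omega)
      (by rwa [hn, Nat.add_sub_cancel])
    have e1 : X * ∏ t ∈ range (e + 1), (2 * Real.log (lossA (2 ^ (t + 1) - 1)))
        = 2 * Real.log (lossA n) * X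
          * ∏ t ∈ range e, (2 * Real.log (lossA (2 ^ (t + 1) - 1))) := by
      rw [Finset.prod_range_succ, hn, Nat.add_sub_cancel]
      ring
    rw [e1, show r + (e + 1) = r + 1 + e by omega]
    exact h3

lemma const_eq_prod (i : ℕ) (L : ℕ → ℝ) (hL : ∀ t, 0 ≤ L t) :
    (2 * Real.log 2 * ∏ t ∈ range i, (2 * L t)) ^ (((i + 2 : ℕ) : ℝ)⁻¹)
      = 2 ^ ((((i + 2 : ℕ) : ℝ) - 1) / 2) * Real.log 2 ^ ((((i + 2 : ℕ) : ℝ) - 1) / (i + 2 : ℕ))
        * (∏ t ∈ range i, L t / (2 ^ (t + 1) * Real.log 2)) ^ ((1 : ℝ) / (i + 2 : ℕ)) := by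
  have hl : 0 < Real.log 2 := Real.log_pos one_lt_two
  have hR : 0 ≤ ∏ t ∈ range i, L t / (2 ^ (t + 1) * Real.log 2) :=
    Finset.prod_nonneg fun t _ => by have := hL t; positivity
  have hsplit : (∏ t ∈ range i, (2 * L t)) = 2 ^ i *
      ((∏ t ∈ range i, L t / (2 ^ (t + 1) * Real.log 2))
        * ∏ t ∈ range i, (2 ^ (t + 1) * Real.log 2)) := by
    rw [← Finset.prod_mul_distrib, Finset.prod_mul_distrib (f := fun _ => (2 : ℝ)),
      Finset.prod_const, Finset.card_range]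
    congr 1
    exact Finset.prod_congr rfl fun t _ => by
      rw [div_mul_cancel₀]; positivity
  have hX : 0 ≤ 2 * Real.log 2 * ∏ t ∈ range i, (2 * L t) :=
    mul_nonneg (by positivity) (Finset.prod_nonneg fun t _ => by have := hL t; linarith)
  have e1 : ((2 : ℝ) ^ ((((i + 2 : ℕ) : ℝ) - 1) / 2)) ^ (2 * (i + 2))
      = 2 ^ ((i + 1) * (i + 2)) := by
    rw [← Real.rpow_natCast ((2 : ℝ) ^ _), ← Real.rpow_mul (by norm_num),
      ← Real.rpow_natCast 2 ((i + 1) * (i + 2))]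
    congr 1
    push_cast
    ring
  have e2 : (Real.log 2 ^ ((((i + 2 : ℕ) : ℝ) - 1) / (i + 2 : ℕ))) ^ (i + 2)
      = Real.log 2 ^ (i + 1) := by
    rw [← Real.rpow_natCast (Real.log 2 ^ _), ← Real.rpow_mul hl.le,
      ← Real.rpow_natCast (Real.log 2) (i + 1)]
    congr 1
    field_simp
    push_cast
    ring
  have e3 : ((∏ t ∈ range i, L t / (2 ^ (t + 1) * Real.log 2)) ^ ((1 : ℝ) / (i + 2 : ℕ))) ^ (i + 2)
      = ∏ t ∈ range i, L t / (2 ^ (t + 1) * Real.log 2) := by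
    rw [one_div, Real.rpow_inv_natCast_pow hR (by omega)]
  set R := ∏ t ∈ range i, L t / (2 ^ (t + 1) * Real.log 2) with hRdef
  set A : ℝ := 2 ^ ((((i + 2 : ℕ) : ℝ) - 1) / 2)
    * Real.log 2 ^ ((((i + 2 : ℕ) : ℝ) - 1) / (i + 2 : ℕ))
    * R ^ ((1 : ℝ) / (i + 2 : ℕ)) with hA
  have hA0 : 0 ≤ A := by positivity
  have hlhs : (A ^ (i + 2)) ^ 2
      = ((2 : ℝ) ^ ((((i + 2 : ℕ) : ℝ) - 1) / 2)) ^ (2 * (i + 2))
        * ((Real.log 2 ^ ((((i + 2 : ℕ) : ℝ) - 1) / (i + 2 : ℕ))) ^ (i + 2)) ^ 2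
        * ((R ^ ((1 : ℝ) / (i + 2 : ℕ))) ^ (i + 2)) ^ 2 := by
    rw [hA]
    ring
  have hrhs : (2 * Real.log 2 * ∏ t ∈ range i, (2 * L t)) ^ 2
      = 4 * Real.log 2 ^ 2 * ((2 ^ i) ^ 2 * R ^ 2
          * (2 ^ (i * (i + 1)) * (Real.log 2 ^ i) ^ 2)) := by
    rw [hsplit, ← prod_pow_log i (Real.log 2)]
    ring
  have hsq : (A ^ (i + 2)) ^ 2 = (2 * Real.log 2 * ∏ t ∈ range i, (2 * L t)) ^ 2 := by
    rw [hlhs, hrhs, e1, e2, e3]
    ring
  rw [← (pow_left_inj₀ (by positivity) hX two_ne_zero).1 hsq,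
    Real.pow_rpow_inv_natCast hA0 (by omega)]

/-- The product of the relative digit losses. -/
lemma loss_prod_bound {i : ℕ} (hi : 1 ≤ i) :
    0 < ∏ t ∈ range i, Real.logb 2 (lossA (2 ^ (t + 1) - 1)) / 2 ^ (t + 1) ∧
    ∏ t ∈ range i, Real.logb 2 (lossA (2 ^ (t + 1) - 1)) / 2 ^ (t + 1)
      ≤ Real.logb 2 3 / 2 := by
  have hpos : ∀ t, 0 < Real.logb 2 (lossA (2 ^ (t + 1) - 1)) / (2 : ℝ) ^ (t + 1) := fun t =>
    div_pos (Real.logb_pos one_lt_two (by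
      exact_mod_cast (show 1 < lossA (2 ^ (t + 1) - 1) by
        have := lossA_two_le (2 ^ (t + 1) - 1); omega))) (by positivity)
  have hle : ∀ t, Real.logb 2 (lossA (2 ^ (t + 1) - 1)) / (2 : ℝ) ^ (t + 1) ≤ 1 := by
    intro t
    obtain ⟨n, hn⟩ : ∃ n, 2 ^ (t + 1) = n + 1 := ⟨2 ^ (t + 1) - 1, by
      have := Nat.one_le_two_pow (n := t + 1)
      omega⟩
    have h2 : 2 ≤ 2 ^ (t + 1) := Nat.le_self_pow (by omega) 2
    have hlt := lossA_lt (show 1 ≤ n by omega)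
    rw [show ((2 : ℝ) ^ (t + 1)) = ((n + 1 : ℕ) : ℝ) by rw [← hn]; push_cast; rfl,
      hn, Nat.add_sub_cancel, div_le_one (by positivity)]
    refine le_of_lt ?_
    rw [Real.logb_lt_iff_lt_rpow one_lt_two (by exact_mod_cast (by
      have := lossA_two_le n; omega : 0 < lossA n)), Real.rpow_natCast]
    exact_mod_cast hlt
  refine ⟨Finset.prod_pos fun t _ => hpos t, ?_⟩
  obtain ⟨j, rfl⟩ : ∃ j, i = j + 1 := ⟨i - 1, by omega⟩
  rw [Finset.prod_range_succ']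
  refine le_trans (mul_le_of_le_one_left (hpos 0).le
    (Finset.prod_le_one (fun t _ => (hpos _).le) fun t _ => hle _)) (le_of_eq ?_)
  norm_num [lossA]

theorem main2_bound {n k : ℕ} (hn : 3 ≤ n) (hk : 2 ^ n ≤ k) (C : ℝ)
    (hC : (n : ℝ) * 2 ^ (((n : ℝ) - 1) / 2) * Real.log 2 ^ (((n : ℝ) - 1) / n)
      * (∏ t ∈ range (n - 2), Real.logb 2 (lossA (2 ^ (t + 1) - 1)) / 2 ^ (t + 1))
          ^ ((1 : ℝ) / n) < C) :
    ∀ᶠ N : ℕ in atTop, ∃ A : Finset ℕ, A ⊆ Finset.Icc 1 N ∧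
      (N : ℝ) * Real.exp (-C * Real.log N ^ ((1 : ℝ) / n)) ≤ A.card ∧
      ∀ a d : ℕ, 0 < d → ∃ i < k, a + i * d ∉ A := by
  obtain ⟨e, rfl⟩ : ∃ e, n = e + 3 := ⟨n - 3, by omega⟩
  obtain ⟨m, hm⟩ : ∃ m, 2 ^ (e + 1) = m + 1 := ⟨2 ^ (e + 1) - 1, by
    have := Nat.one_le_two_pow (n := e + 1)
    omega⟩
  have h2 : 2 ≤ 2 ^ (e + 1) := Nat.le_self_pow (by omega) 2
  rw [show e + 3 = e + 1 + 1 + 1 by omega, pow_succ', pow_succ', hm] at hk
  have hlog : ∀ n, 0 < Real.log (lossA n) := fun n => Real.log_pos (by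
    exact_mod_cast (show 1 < lossA n by have := lossA_two_le n; omega))
  have ht := has_top (k := k) (show 1 ≤ m by omega) (by omega)
  have hc := has_nest_chain (k := k) e (2 * Real.log (lossA m)) 2 (by have := hlog m; positivity)
    (by omega) (by rw [show e + 2 = e + 1 + 1 by omega, pow_succ', hm]; omega)
    (by rwa [hm, Nat.add_sub_cancel])
  have hX : 0 < 2 * Real.log (lossA m)
      * ∏ t ∈ range e, (2 * Real.log (lossA (2 ^ (t + 1) - 1))) :=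
    mul_pos (by have := hlog m; positivity)
      (Finset.prod_pos fun t _ => by have := hlog (2 ^ (t + 1) - 1); positivity)
  have hd := has_double (d := 1) le_rfl (by omega) hX (show 1 ≤ 2 + e by omega)
    (has_mono (fun S hS => free_of_freeA (by omega) hS) hc)
  rw [show 2 + e + 1 = e + 3 by omega] at hd
  have heq : 2 * (((1 : ℕ) : ℝ) * Real.log 2) * (2 * Real.log (lossA m)
      * ∏ t ∈ range e, (2 * Real.log (lossA (2 ^ (t + 1) - 1))))
      = 2 * Real.log 2 * ∏ t ∈ range (e + 1), (2 * Real.log (lossA (2 ^ (t + 1) - 1))) := by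
    rw [Finset.prod_range_succ, hm, Nat.add_sub_cancel]
    push_cast
    ring
  rw [heq] at hd
  have hC' : ((e + 3 : ℕ) : ℝ) * (2 * Real.log 2
      * ∏ t ∈ range (e + 1), (2 * Real.log (lossA (2 ^ (t + 1) - 1))))
      ^ (((e + 3 : ℕ) : ℝ)⁻¹) < C := by
    refine lt_of_eq_of_lt ?_ hC
    rw [show e + 3 = e + 1 + 2 by omega,
      const_eq_prod (e + 1) (fun t => Real.log (lossA (2 ^ (t + 1) - 1))) (fun t => (hlog _).le),
      show e + 1 + 2 - 2 = e + 1 by omega]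
    simp only [Real.logb, div_div, mul_comm ((2 : ℝ) ^ (_ + 1)) (Real.log 2)]
    ring
  filter_upwards [hd C hC'] with N hN
  obtain ⟨S, hS, hf, hcard⟩ := hN
  obtain ⟨A, hA, hAc, hAP⟩ := to_nat hS hf
  refine ⟨A, hA, ?_, hAP⟩
  rw [hAc, one_div]
  exact hcard

theorem main2_lt {n : ℕ} (hn : 3 ≤ n) :
    (n : ℝ) * 2 ^ (((n : ℝ) - 1) / 2) * Real.log 2 ^ (((n : ℝ) - 1) / n)
      * (∏ t ∈ range (n - 2), Real.logb 2 (lossA (2 ^ (t + 1) - 1)) / 2 ^ (t + 1))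
          ^ ((1 : ℝ) / n)
    ≤ (n : ℝ) * 2 ^ (((n : ℝ) - 1) / 2) * Real.log 2 ^ (((n : ℝ) - 1) / n)
      * (Real.logb 2 3 / 2) ^ ((1 : ℝ) / n) ∧
    (n : ℝ) * 2 ^ (((n : ℝ) - 1) / 2) * Real.log 2 ^ (((n : ℝ) - 1) / n)
      * (Real.logb 2 3 / 2) ^ ((1 : ℝ) / n)
    < (n : ℝ) * 2 ^ (((n : ℝ) - 1) / 2) * Real.log 2 ^ (((n : ℝ) - 1) / n) := by
  have h := loss_prod_bound (show 1 ≤ n - 2 by omega)
  have hn0 : (0 : ℝ) < n := by exact_mod_cast (show 0 < n by omega)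
  have hlog : 0 < Real.log 2 := Real.log_pos one_lt_two
  have h3 : Real.logb 2 3 / 2 < 1 := by
    rw [div_lt_one two_pos, Real.logb_lt_iff_lt_rpow one_lt_two (by norm_num)]
    norm_num
  have h0 : 0 < Real.logb 2 3 / 2 := lt_of_lt_of_le h.1 h.2
  exact ⟨mul_le_mul_of_nonneg_left (Real.rpow_le_rpow h.1.le h.2 (by positivity)) (by positivity),
    mul_lt_of_lt_one_right (by positivity) (Real.rpow_lt_one h0.le h3 (by positivity))⟩

end P057
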