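import Vale.Agent.P057.Pairs
import Vale.Agent.P057.Asymp

/-!
The analytic form of the paired last step.
-/

namespace P057

open Finset Filter Real

/-- Per digit loss of the paired step. -/
noncomputable def wPair : ℝ := Real.log (64 / 17) / 2

lemma wPair_pos : 0 < wPair := div_pos (Real.log_pos (by norm_num)) two_pos

lemma range_bound {a ε u L lB K : ℝ} (ha : 0 < a) (hε : 0 < ε) {r : ℕ} (hr : 1 ≤ r)
    (hu : 1 ≤ u) (hLu : L = u ^ (r + 1)) (hL0 : 0 ≤ L) (hlB : 0 ≤ lB) {D T' : ℝ} (hD : 1 ≤ D)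
    (hD1 : a * u ≤ D) (hD2 : D ≤ a * u + 2) (hT0 : 0 < T') (hK0 : 0 < K)
    (hT : T' ≤ K * D * Real.exp ((L + lB) / D) ^ 2)
    (hK : (2 * (ε / (2 * a ^ 2)) - Real.log (ε / (2 * a ^ 2)) + Real.log K + 2 * lB) * (2 * a)
      ≤ u * ε) :
    Real.log T' ≤ (2 + ε) / a * u ^ r := by
  have hD0 : 0 < D := by linarith
  have h2 : Real.log T' ≤ Real.log K + Real.log D + 2 * ((L + lB) / D) := by
    refine le_trans (Real.log_le_log hT0 hT) (le_of_eq ?_)
    rw [Real.log_mul (by positivity) (by positivity), Real.log_mul hK0.ne' hD0.ne', Real.log_pow,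
      Real.log_exp]
    norm_num
  have hδ : 0 < ε / (2 * a ^ 2) := by positivity
  have h4 : Real.log D ≤ ε / (2 * a ^ 2) * (a * u + 2) - Real.log (ε / (2 * a ^ 2)) :=
    le_trans (Real.log_le_log hD0 hD2) (log_lin (by positivity) hδ)
  have h5 : (L + lB) / D ≤ u ^ r / a + lB := by
    rw [add_div]
    refine add_le_add ?_ (div_le_self hlB hD)
    calc L / D ≤ L / (a * u) := div_le_div_of_nonneg_left hL0 (by positivity) hD1
      _ = u ^ r / a := by rw [hLu, pow_succ]; field_simp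
  have h6 : ε / (2 * a ^ 2) * (a * u + 2) = ε / (2 * a) * u + 2 * (ε / (2 * a ^ 2)) := by
    field_simp
  have h7 : 2 * (ε / (2 * a ^ 2)) - Real.log (ε / (2 * a ^ 2)) + Real.log K + 2 * lB
      ≤ ε / (2 * a) * u := by
    rw [div_mul_eq_mul_div, le_div_iff₀ (by positivity)]
    linarith
  have h8 : u ≤ u ^ r := le_self_pow₀ hu (by omega)
  calc Real.log T' ≤ 2 * (u ^ r / a) + 2 * (ε / (2 * a) * u) := by linarith
    _ = (2 * u ^ r + ε * u) / a := by field_simp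
    _ ≤ (2 * u ^ r + ε * u ^ r) / a := by gcongr
    _ = (2 + ε) / a * u ^ r := by ring

lemma cells_density {ε : ℝ} {r H : ℕ} (hr : 3 ≤ r)
    (hrε : Real.exp (-ε) ≤ 1 - 2 / (r : ℝ)) (hH : 41 * r + 100 ≤ H) :
    Real.exp (-(2 * (wPair + ε))) * (4 * (H : ℝ)) ^ 2
      ≤ (cells (H : ℤ) ((H / r : ℕ) : ℤ)).card := by
  have hG : H / r ≤ H / 3 := Nat.div_le_div_left hr (by norm_num)
  set P := (H - 40 - H / r) / 2 with hP
  have hc := cells_card (H := H) (G := H / r) (P := P) (by omega) (by omega)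
  have hr0 : (0 : ℝ) < r := by exact_mod_cast (show 0 < r by omega)
  have hs0 : 0 ≤ 1 - 2 / (r : ℝ) := le_trans (Real.exp_pos _).le hrε
  have hHr : 41 * (r : ℝ) + 100 ≤ H := by exact_mod_cast hH
  have hGr : ((H / r : ℕ) : ℝ) ≤ (H : ℝ) / r := Nat.cast_div_le
  have hA : (H : ℝ) / r * 2 = 2 / (r : ℝ) * H := by ring
  have hB : 41 ≤ (H : ℝ) / r := by rw [le_div_iff₀ hr0]; linarith
  have hP' : (1 - 2 / (r : ℝ)) * H ≤ 2 * (P : ℝ) := by
    have h1 : H ≤ 2 * P + 41 + H / r := by omega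
    have h2 : (H : ℝ) ≤ 2 * (P : ℝ) + 41 + ((H / r : ℕ) : ℝ) := by exact_mod_cast h1
    rw [sub_mul, one_mul]
    linarith
  have hK' : (1 - 2 / (r : ℝ)) * (2 * H) ≤ ((2 * H - 20 : ℕ) : ℝ) := by
    rw [Nat.cast_sub (by omega)]
    push_cast
    rw [sub_mul, one_mul]
    linarith
  have hc' : ((2 * H - 20 : ℕ) : ℝ) ^ 2 + (P : ℝ) ^ 2
      ≤ (cells (H : ℤ) ((H / r : ℕ) : ℤ)).card := by exact_mod_cast hc
  refine le_trans ?_ hc'
  have e : Real.exp (-(2 * (wPair + ε))) = 17 / 64 * Real.exp (-ε) ^ 2 := by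
    rw [← Real.exp_nat_mul, show -(2 * (wPair + ε)) = -Real.log (64 / 17) + ((2 : ℕ) : ℝ) * (-ε) by
      unfold wPair; push_cast; ring, Real.exp_add, Real.exp_neg,
      Real.exp_log (by norm_num)]
    norm_num
  rw [e]
  have hsq := pow_le_pow_left₀ (Real.exp_pos (-ε)).le hrε 2
  have k1 := pow_le_pow_left₀ (mul_nonneg hs0 (by positivity)) hK' 2
  have k2 := pow_le_pow_left₀ (mul_nonneg hs0 (by positivity)) hP' 2
  calc 17 / 64 * Real.exp (-ε) ^ 2 * (4 * (H : ℝ)) ^ 2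
      ≤ 17 / 64 * (1 - 2 / (r : ℝ)) ^ 2 * (4 * (H : ℝ)) ^ 2 := by gcongr
    _ = ((1 - 2 / (r : ℝ)) * (2 * H)) ^ 2 + ((1 - 2 / (r : ℝ)) * H) ^ 2 / 4 := by ring
    _ ≤ _ := by rw [mul_pow 2 (P : ℝ)] at k2; linarith

lemma pairs_combine {k D T T' T'' H G : ℕ} (hk : 3 ≤ k) (hH : 100 ≤ H) (hG : 320 * D + 1 ≤ G)
    (hQ : 4 * T ≤ (4 * H * (4 * H)) ^ D) (hT' : D * (8 * (4 * H) ^ 2) < T')
    (hT'' : D * (120 * D * (H / G + 1)) < T'') {R : Finset ℤ} (hR : R ⊆ Finset.Ico (0 : ℤ) T')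
    (hQR : Free k 2 R) :
    ∃ S : Finset ℤ, S ⊆ Finset.Ico (0 : ℤ) T ∧ Free k 1 S ∧
      T * (cells (H : ℤ) (G : ℤ)).card ^ D * R.card
        ≤ S.card * ((4 * H * (4 * H)) ^ D * (2 * T') * T'') := by
  classical
  let A : Finset (Fin D → ℤ × ℤ × ℤ) := Fintype.piFinset fun _ => cells (H : ℤ) (G : ℤ)
  have hA : ∀ f ∈ A, ∀ l, Adm (H : ℤ) (G : ℤ) (f l) := fun f hf l =>
    mem_cells.1 (Fintype.mem_piFinset.1 hf l)
  have hQcast : (((4 * H * (4 * H)) ^ D : ℕ) : ℤ) = (4 * (H : ℤ) * (4 * (H : ℤ))) ^ D := by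
    push_cast; ring
  have hH' : (100 : ℤ) ≤ (H : ℤ) := by exact_mod_cast hH
  obtain ⟨γ, δ, ω, S, hS, hsel, hcard⟩ := exists_sel2 (T := T) (T' := T') (T'' := T'') A
    (resid (H : ℤ)) sq2 (lab2 (H : ℤ) (G : ℤ)) (Q := (4 * H * (4 * H)) ^ D) (by positivity)
    (fun f hf g hg hd => resid_inj hH' (hA f hf) (hA g hg) (by rwa [hQcast] at hd))
    (by omega)
    (fun f hf => by
      have h1 := sq2_bound hH' (hA f hf)
      have h2 : ((D * (8 * (4 * H) ^ 2) : ℕ) : ℤ) < (T' : ℤ) := by exact_mod_cast hT'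
      push_cast at h2
      exact ⟨h1.1, lt_of_le_of_lt h1.2 h2⟩)
    (fun f hf => by
      have h1 := lab2_bound (show (0 : ℤ) < (G : ℤ) by omega) (hA f hf)
      have h2 : ((D * (120 * D * (H / G + 1)) : ℕ) : ℤ) < (T'' : ℤ) := by exact_mod_cast hT''
      push_cast at h2
      exact ⟨h1.1, lt_of_le_of_lt h1.2 h2⟩)
    (by omega) hR
  refine ⟨S, hS, free_pairs (H := (H : ℤ)) (G := (G : ℤ)) (D := D) (γ := γ) (δ := δ) (ω := ω)
    (R := R) hk hH' (by exact_mod_cast hG) (by exact_mod_cast hQ) hQR hS ?_, ?_⟩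
  · intro t ht
    obtain ⟨f, hf, h1, h2, h3⟩ := hsel t ht
    exact ⟨f, hA f hf, by rwa [← hQcast], h2, h3⟩
  · refine le_trans (le_of_eq ?_) hcard
    rw [Fintype.card_piFinset]
    simp

lemma label_range {D H r : ℕ} (hr : 1 ≤ r) (hD : 1 ≤ D) (hH : r ≤ H) :
    D * (120 * D * (H / (H / r) + 1)) + 1 ≤ 400 * r * D ^ 2 := by
  have hG : 1 ≤ H / r := (Nat.one_le_div_iff (by omega)).2 hH
  have h1 : H / (H / r) ≤ 2 * r := by
    rw [Nat.div_le_iff_le_mul_add_pred (by omega)]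
    have h2 := Nat.div_add_mod H r
    have h3 := Nat.mod_lt H (show 0 < r by omega)
    have h4 : r * 1 ≤ r * (H / r) := Nat.mul_le_mul_left r hG
    have h5 : H / r * (2 * r) = 2 * (r * (H / r)) := by ring
    omega
  calc D * (120 * D * (H / (H / r) + 1)) + 1
      ≤ D * (120 * D * (3 * r)) + r * D ^ 2 := by
        refine Nat.add_le_add (Nat.mul_le_mul_left _ (Nat.mul_le_mul_left _ (by omega))) ?_
        exact Nat.one_le_iff_ne_zero.2 (by positivity)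
    _ = 361 * r * D ^ 2 := by ring
    _ ≤ 400 * r * D ^ 2 := by gcongr; norm_num

lemma size_exp {a u L l4 : ℝ} {D : ℝ} (ha : 0 < a) (hu : 1 ≤ u) {r : ℕ} (hr : 1 ≤ r)
    (hLu : L = u ^ (r + 1)) (hl : 0 ≤ l4) (hD0 : 0 < D) (hD2 : D ≤ a * u + 2) :
    u ^ 2 / (2 * (a + 2) ^ 2) ≤ Real.exp ((L + l4) / D) := by
  have h1 : D ≤ (a + 2) * u := by nlinarith
  have h2 : u ^ 2 ≤ L := by rw [hLu]; exact pow_le_pow_right₀ hu (by omega)
  have h3 : u / (a + 2) ≤ (L + l4) / D := by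
    rw [div_le_div_iff₀ (by linarith) hD0]
    calc u * D ≤ u * ((a + 2) * u) := mul_le_mul_of_nonneg_left h1 (by linarith)
      _ = u ^ 2 * (a + 2) := by ring
      _ ≤ (L + l4) * (a + 2) := mul_le_mul_of_nonneg_right (by linarith) (by linarith)
  have h4 : (0 : ℝ) ≤ u / (a + 2) := div_nonneg (by linarith) (by linarith)
  have h5 := pow_le_pow_left₀ h4 h3 2
  have h6 := Real.quadratic_le_exp_of_nonneg (le_trans h4 h3)
  have h7 : u ^ 2 / (2 * (a + 2) ^ 2) = (u / (a + 2)) ^ 2 / 2 := by field_simp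
  linarith [le_trans h4 h3]

lemma cost_bound {a u ε w c κ c' K : ℝ} {D : ℝ} (hu : 1 ≤ u) (ha : 0 < a) (hw : 0 ≤ w + ε)
    (hD0 : 0 < D) (hD2 : 2 * D ≤ a * u + 2) (hK : 0 < K) {g : ℝ} (hg : 0 < g)
    (hgap : g = c' - (a * (w + ε) + c * κ))
    (hu2 : 2 * (w + ε) + Real.log 2 + Real.log K - 2 * Real.log (g / (8 * (a + 2))) ≤ g / 2 * u) :
    D * (2 * (w + ε)) + (c * (κ * u) + Real.log (K * D ^ 2)) + Real.log 2 ≤ c' * u := by
  have h1 := mul_le_mul_of_nonneg_right hD2 hw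
  have hδ : 0 < g / (8 * (a + 2)) := by positivity
  have h2 := log_lin hD0 hδ
  have h3 : D ≤ (a + 2) * u := by nlinarith
  have h4 := mul_le_mul_of_nonneg_left h3 hδ.le
  have h5 : g / (8 * (a + 2)) * ((a + 2) * u) = g / 8 * u := by field_simp
  rw [Real.log_mul hK.ne' (by positivity), Real.log_pow]
  push_cast
  have h6 : 0 ≤ g * u := mul_nonneg hg.le (by linarith)
  have h7 : g * u = c' * u - a * (w + ε) * u - c * κ * u := by rw [hgap]; ring
  linarith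

/-- Choice of the number of blocks and of the scale. -/
lemma choose_scale {a u : ℝ} (ha : 0 < a) {r : ℕ} (hr : 1 ≤ r) (hu1 : 1 ≤ u) {s N0 T : ℕ}
    (hs3 : 3 ≤ s) (hT : 1 ≤ T) (hLu : Real.log T = u ^ (r + 1)) (huN : (N0 : ℝ) ≤ u)
    (hu4 : 2 * (a + 2) ^ 2 * ((s : ℝ) * (321 * (a + 2) + 341)) ≤ u) :
    ∃ D H : ℕ, 1 ≤ D ∧ a * u ≤ 2 * (D : ℝ) ∧ 2 * (D : ℝ) ≤ a * u + 2 ∧
      (H : ℝ) ≤ 2 * Real.exp ((Real.log T + Real.log 4) / (2 * (D : ℝ))) ∧
      41 * s + 100 ≤ H ∧ 320 * D + 1 ≤ H / s ∧ N0 ≤ H ∧ 4 * T ≤ (4 * H * (4 * H)) ^ D := by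
  have hT1 : (1 : ℝ) ≤ T := by exact_mod_cast hT
  have hL0 : 0 ≤ Real.log T := Real.log_nonneg hT1
  have hl4 : 0 ≤ Real.log (4 : ℝ) := Real.log_nonneg (by norm_num)
  obtain ⟨D, hDdef⟩ : ∃ D, D = ⌈a * u / 2⌉₊ := ⟨_, rfl⟩
  have hau : 0 < a * u / 2 := by positivity
  have hD1 : a * u ≤ 2 * (D : ℝ) := by
    have := Nat.le_ceil (a * u / 2)
    rw [← hDdef] at this
    linarith
  have hD2 : 2 * (D : ℝ) ≤ a * u + 2 := by
    have := (Nat.ceil_lt_add_one hau.le).le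
    rw [← hDdef] at this
    linarith
  have hDn : 1 ≤ D := by rw [hDdef]; exact Nat.ceil_pos.2 hau
  have hD0 : (0 : ℝ) < D := by exact_mod_cast (show 0 < D by omega)
  obtain ⟨y, hy⟩ : ∃ y, y = (Real.log T + Real.log 4) / (2 * (D : ℝ)) := ⟨_, rfl⟩
  obtain ⟨H, hHdef⟩ : ∃ H, H = ⌈Real.exp y⌉₊ := ⟨_, rfl⟩
  have hH1 : Real.exp y ≤ H := by rw [hHdef]; exact Nat.le_ceil _
  have hH2 : (H : ℝ) ≤ 2 * Real.exp y := by
    rw [hHdef]
    have h1 := (Nat.ceil_lt_add_one (Real.exp_pos y).le).le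
    have h2 : 0 ≤ y := by rw [hy]; positivity
    linarith [Real.one_le_exp h2]
  have hbig : (s : ℝ) * (321 * (a + 2) + 341) * u ≤ Real.exp y := by
    rw [hy]
    refine le_trans ?_ (size_exp ha hu1 hr hLu hl4 (by positivity) hD2)
    rw [le_div_iff₀ (by positivity)]
    have := mul_le_mul_of_nonneg_right hu4 (show 0 ≤ u by linarith)
    nlinarith
  have hsr : (3 : ℝ) ≤ s := by exact_mod_cast hs3
  have hHs : (s : ℝ) * (321 * (D : ℝ) + 41) + 300 ≤ H := by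
    refine le_trans ?_ hH1
    refine le_trans ?_ hbig
    have hDu : (D : ℝ) ≤ (a + 2) * u := by nlinarith
    have := mul_le_mul_of_nonneg_left hDu (show (0 : ℝ) ≤ (s : ℝ) * 321 by positivity)
    have h300 : (s : ℝ) * 41 + 300 ≤ (s : ℝ) * 341 * u := by nlinarith
    linarith
  have hHn : s * (321 * D + 41) + 300 ≤ H := by exact_mod_cast hHs
  have hs41 : 41 * s + 100 ≤ H := by nlinarith
  have hG : 320 * D + 1 ≤ H / s := by
    rw [Nat.le_div_iff_mul_le (by omega)]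
    nlinarith
  have hNH : N0 ≤ H := by
    have h1 : (N0 : ℝ) ≤ H := by
      refine le_trans huN (le_trans ?_ hH1)
      refine le_trans ?_ hbig
      exact le_mul_of_one_le_left (by linarith) (one_le_mul_of_one_le_of_one_le (by linarith)
        (by linarith))
    exact_mod_cast h1
  have hQ : 4 * T ≤ (4 * H * (4 * H)) ^ D := by
    have h1 : (4 : ℝ) * T ≤ (4 * (H : ℝ) * (4 * H)) ^ D := by
      calc (4 : ℝ) * T = (Real.exp y * Real.exp y) ^ D := by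
            rw [← Real.exp_add, ← Real.exp_nat_mul, hy]
            rw [show (D : ℝ) * ((Real.log T + Real.log 4) / (2 * (D : ℝ))
              + (Real.log T + Real.log 4) / (2 * (D : ℝ))) = Real.log T + Real.log 4 by
                field_simp; ring]
            rw [Real.exp_add, Real.exp_log (by linarith), Real.exp_log (by norm_num)]
            ring
        _ ≤ (4 * (H : ℝ) * (4 * H)) ^ D := by
            gcongr <;> linarith [Real.exp_pos y]
    exact_mod_cast h1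
  exact ⟨D, H, hDn, hD1, hD2, by rw [← hy]; exact hH2, hs41, hG, hNH, hQ⟩

/-- The size of the selected set. -/
lemma pairs_size {a ε u c c' g : ℝ} (ha : 0 < a) (hε : 0 < ε) (hc0 : 0 ≤ c) (hg : 0 < g)
    {r s D H T T' : ℕ} (hr : 1 ≤ r) (hu1 : 1 ≤ u) (hs3 : 3 ≤ s)
    (hsε : Real.exp (-ε) ≤ 1 - 2 / (s : ℝ)) (hDn : 1 ≤ D) (hs41 : 41 * s + 100 ≤ H)
    (hT : 1 ≤ T) (hLu : Real.log T = u ^ (r + 1)) (hD1 : a * u ≤ 2 * (D : ℝ))
    (hD2 : 2 * (D : ℝ) ≤ a * u + 2)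
    (hH2 : (H : ℝ) ≤ 2 * Real.exp ((Real.log T + Real.log 4) / (2 * (D : ℝ))))
    (hT'def : T' = D * (8 * (4 * H) ^ 2) + 1)
    (hgap : g = c' - (a * (wPair + ε) + c * ((2 + ε) / a) ^ ((r : ℝ)⁻¹)))
    (hu2 : (2 * (ε / (2 * a ^ 2)) - Real.log (ε / (2 * a ^ 2))
      + Real.log 513 + 2 * Real.log 4) * (2 * a) ≤ u * ε)
    (hu3 : 2 * (wPair + ε) + Real.log 2 + Real.log (400 * (s : ℝ))
      - 2 * Real.log (g / (8 * (a + 2))) ≤ u * (g / 2))
    {R S : Finset ℤ} (hRc : (T' : ℝ) * Real.exp (-c * Real.log T' ^ ((r : ℝ)⁻¹)) ≤ R.card)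
    (hcard : T * (cells (H : ℤ) ((H / s : ℕ) : ℤ)).card ^ D * R.card
      ≤ S.card * ((4 * H * (4 * H)) ^ D * (2 * T') * (D * (120 * D * (H / (H / s) + 1)) + 1))) :
    (T : ℝ) * Real.exp (-c' * u) ≤ S.card := by
  have hw : 0 ≤ wPair + ε := by linarith [wPair_pos]
  have hT1 : (1 : ℝ) ≤ T := by exact_mod_cast hT
  have hL0 : 0 ≤ Real.log T := Real.log_nonneg hT1
  have hl4 : 0 ≤ Real.log (4 : ℝ) := Real.log_nonneg (by norm_num)
  have hD0 : (0 : ℝ) < D := by exact_mod_cast (show 0 < D by omega)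
  have hH0 : (0 : ℝ) < H := by exact_mod_cast (show 0 < H by omega)
  obtain ⟨y, hy⟩ : ∃ y, y = (Real.log T + Real.log 4) / (2 * (D : ℝ)) := ⟨_, rfl⟩
  rw [← hy] at hH2
  have hT'0 : (0 : ℝ) < T' := by rw [hT'def]; positivity
  have hlogT' : Real.log T' ≤ (2 + ε) / a * u ^ r := by
    refine range_bound (L := Real.log T) (lB := Real.log 4) (K := 513) (D := 2 * (D : ℝ)) ha hε hr
      hu1 hLu hL0 hl4 ?_ hD1 hD2 hT'0 (by norm_num) ?_ (by linarith)
    · have : (1 : ℝ) ≤ D := by exact_mod_cast hDn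
      linarith
    · rw [← hy, hT'def]
      push_cast
      have h1 := pow_le_pow_left₀ (Nat.cast_nonneg H) hH2 2
      have h2 := mul_le_mul_of_nonneg_left h1 (show (0 : ℝ) ≤ 128 * D by positivity)
      have h3 : (1 : ℝ) ≤ D * Real.exp y ^ 2 := by
        have h4 : (1 : ℝ) ≤ D := by exact_mod_cast hDn
        have h5 : 1 ≤ Real.exp y := Real.one_le_exp (by rw [hy]; positivity)
        nlinarith
      nlinarith
  have hκu : Real.log T' ^ ((r : ℝ)⁻¹) ≤ ((2 + ε) / a) ^ ((r : ℝ)⁻¹) * u := by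
    refine le_trans (Real.rpow_le_rpow (Real.log_natCast_nonneg T') hlogT' (by positivity))
      (le_of_eq ?_)
    rw [Real.mul_rpow (by positivity) (by positivity), Real.pow_rpow_inv_natCast (by linarith)
      (by omega)]
  have hcard' : (T : ℝ) * ((cells (H : ℤ) ((H / s : ℕ) : ℤ)).card : ℝ) ^ D * R.card
      ≤ S.card * ((4 * (H : ℝ) * (4 * H)) ^ D *
        (2 * ((T' : ℝ) * ((D * (120 * D * (H / (H / s) + 1)) + 1 : ℕ) : ℝ)))) := by
    have := (Nat.cast_le (α := ℝ)).2 hcard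
    push_cast at this ⊢
    linarith
  have hlab : Real.log ((D * (120 * D * (H / (H / s) + 1)) + 1 : ℕ) : ℝ)
      ≤ Real.log (400 * (s : ℝ) * (D : ℝ) ^ 2) := by
    refine Real.log_le_log (by positivity) ?_
    exact_mod_cast label_range (by omega) hDn (by nlinarith)
  rw [neg_mul]
  refine size_bound (v := 2 * (wPair + ε))
    (e := c * (((2 + ε) / a) ^ ((r : ℝ)⁻¹) * u)
      + Real.log ((D * (120 * D * (H / (H / s) + 1)) + 1 : ℕ) : ℝ))
    (by linarith) (by positivity) (by positivity) ?_ ?_ hcard' ?_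
  · refine le_trans (le_of_eq ?_) (cells_density hs3 hsε hs41)
    ring
  · rw [neg_add, Real.exp_add, Real.exp_neg (Real.log _), Real.exp_log (by positivity)]
    refine le_trans (le_of_eq_of_le (b := (T' : ℝ)
      * Real.exp (-(c * (((2 + ε) / a) ^ ((r : ℝ)⁻¹) * u)))) (by field_simp) ?_) hRc
    refine mul_le_mul_of_nonneg_left (Real.exp_le_exp.2 ?_) hT'0.le
    rw [neg_mul]
    exact neg_le_neg (mul_le_mul_of_nonneg_left hκu hc0)
  · have := cost_bound (D := (D : ℝ)) (w := wPair) (ε := ε) (c := c)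
      (κ := ((2 + ε) / a) ^ ((r : ℝ)⁻¹)) (c' := c') (K := 400 * (s : ℝ)) hu1 ha hw hD0 hD2
      (by positivity) hg hgap (by linarith)
    linarith


/-- The paired last step, analytic form. -/
theorem has_pairs {k : ℕ} (hk : 3 ≤ k) {X : ℝ} (hX : 0 < X) {r : ℕ} (hr : 1 ≤ r)
    (hin : Has (Free k 2) X r) : Has (Free k 1) (2 * wPair * X) (r + 1) := by
  intro c' hc'
  obtain ⟨a, ε, ha, hε, hlt⟩ := exists_eps wPair_pos hX hr hc'
  have hw : 0 ≤ wPair + ε := by linarith [wPair_pos]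
  have he1 : Real.exp (-ε) < 1 := Real.exp_lt_one_iff.2 (by linarith)
  obtain ⟨s, hs⟩ : ∃ s : ℕ, max 3 (2 / (1 - Real.exp (-ε))) ≤ (s : ℝ) := ⟨_, Nat.le_ceil _⟩
  have hs3 : 3 ≤ s := by exact_mod_cast le_trans (le_max_left _ _) hs
  have hsε : Real.exp (-ε) ≤ 1 - 2 / (s : ℝ) := by
    have h1 := le_trans (le_max_right _ _) hs
    have hs0 : (0 : ℝ) < s := by exact_mod_cast (show 0 < s by omega)
    rw [div_le_iff₀ (by linarith)] at h1
    rw [le_sub_iff_add_le, ← le_sub_iff_add_le', div_le_iff₀ hs0]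
    linarith
  obtain ⟨g, hgap⟩ : ∃ g, g = c' - (a * (wPair + ε)
      + ((r : ℝ) * X ^ ((r : ℝ)⁻¹) + ε) * ((2 + ε) / a) ^ ((r : ℝ)⁻¹)) := ⟨_, rfl⟩
  have hg : 0 < g := by rw [hgap]; linarith
  obtain ⟨c, hc⟩ : ∃ c, c = (r : ℝ) * X ^ ((r : ℝ)⁻¹) + ε := ⟨_, rfl⟩
  have hc0 : 0 ≤ c := by rw [hc]; positivity
  obtain ⟨N0, hN0⟩ := eventually_atTop.1 (hin c (by rw [hc]; linarith))
  have htend : Tendsto (fun T : ℕ => Real.log T ^ (((r + 1 : ℕ) : ℝ)⁻¹)) atTop atTop :=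
    (tendsto_rpow_atTop (by positivity)).comp
      (Real.tendsto_log_atTop.comp tendsto_natCast_atTop_atTop)
  filter_upwards [htend.eventually_ge_atTop 1, htend.eventually_ge_atTop (N0 : ℝ),
    htend.eventually_ge_atTop ((2 * (ε / (2 * a ^ 2)) - Real.log (ε / (2 * a ^ 2))
      + Real.log 513 + 2 * Real.log 4) * (2 * a) / ε),
    htend.eventually_ge_atTop ((2 * (wPair + ε) + Real.log 2 + Real.log (400 * (s : ℝ))
      - 2 * Real.log (g / (8 * (a + 2)))) / (g / 2)),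
    htend.eventually_ge_atTop (2 * (a + 2) ^ 2 * ((s : ℝ) * (321 * (a + 2) + 341))),
    eventually_ge_atTop 1] with T hu1 huN hu2 hu3 hu4 hT
  generalize hud : Real.log T ^ (((r + 1 : ℕ) : ℝ)⁻¹) = u at hu1 huN hu2 hu3 hu4 ⊢
  rw [div_le_iff₀ hε] at hu2
  rw [div_le_iff₀ (by positivity)] at hu3
  have hT1 : (1 : ℝ) ≤ T := by exact_mod_cast hT
  have hL0 : 0 ≤ Real.log T := Real.log_nonneg hT1
  have hLu : Real.log T = u ^ (r + 1) := by
    rw [← hud, Real.rpow_inv_natCast_pow hL0 (by omega)]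
  obtain ⟨D, H, hDn, hD1, hD2, hH2, hs41, hG, hNH, hQ⟩ :=
    choose_scale ha hr hu1 hs3 hT hLu huN hu4
  obtain ⟨T', hT'def⟩ : ∃ T', T' = D * (8 * (4 * H) ^ 2) + 1 := ⟨_, rfl⟩
  have hT'N : N0 ≤ T' := by
    have h3 : H ≤ D * (8 * (4 * H) ^ 2) := by
      have := Nat.le_mul_of_pos_left (8 * (4 * H) ^ 2) (show 0 < D by omega)
      have := Nat.le_self_pow (two_ne_zero) (4 * H)
      omega
    omega
  obtain ⟨R, hR, hQR, hRc⟩ := hN0 T' hT'N
  obtain ⟨S, hS, hfree, hcard⟩ := pairs_combine (T := T)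
    (T'' := D * (120 * D * (H / (H / s) + 1)) + 1) hk (by omega) hG hQ
    (show D * (8 * (4 * H) ^ 2) < T' by omega) (Nat.lt_succ_self _) hR hQR
  refine ⟨S, hS, hfree, ?_⟩
  exact pairs_size ha hε hc0 hg hr hu1 hs3 hsε hDn hs41 hT hLu hD1 hD2 hH2 hT'def
    (by rw [hc]; exact hgap) (by linarith) (by linarith) hRc hcard

end P057
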