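import Vale.Agent.P057.Main2
import Vale.Agent.P057.PairsAsymp

/-!
The three constants with the paired last step.
-/

namespace P057

open Finset Filter Real

/-- The factor gained by the paired last step. -/
noncomputable def gainPair : ℝ := Real.logb 2 (64 / 17) / 2

lemma wPair_eq : wPair = gainPair * Real.log 2 := by
  have : Real.log 2 ≠ 0 := (Real.log_pos one_lt_two).ne'
  unfold wPair gainPair Real.logb
  field_simp

lemma gainPair_pos : 0 < gainPair :=
  div_pos (Real.logb_pos one_lt_two (by norm_num)) two_pos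

lemma gainPair_lt_one : gainPair < 1 := by
  unfold gainPair
  rw [div_lt_one two_pos, Real.logb_lt_iff_lt_rpow one_lt_two (by norm_num)]
  norm_num

lemma has_top_plain {j k : ℕ} (hj : 1 ≤ j) (hk : 2 * j < k) :
    Has (Free k j) (2 * ((j : ℝ) * Real.log 2)) 2 := by
  have hfree : Free k (2 * j) {0} := by
    intro s hs _
    refine (dif_congr (g := fun _ => (0 : ℤ)) fun i hi => ?_).trans (dif_zero _ _)
    exact Finset.mem_singleton.1 (hs (0 + i) (by omega))
  have h := has_step (fun R => R = {0}) (Free k j) (Nat.le_self_pow (show j ≠ 0 by omega) 2)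
    (Nat.one_le_two_pow (n := j)) one_pos le_rfl
    (fun q m D T γ δ R S hm hQ hR hST hS => by
      subst hR
      exact free_step hj hk hm hQ hfree hST hS) has_singleton
  simpa using h

lemma has_chain_two {k : ℕ} : ∀ (i : ℕ) (X : ℝ) (r : ℕ), 0 < X → 1 ≤ r → 2 ^ (i + 1) < k →
    Has (Free k (2 ^ (i + 1))) X r →
      Has (Free k 2) (X * ∏ t ∈ range i, (2 ^ (t + 2) * Real.log 2)) (r + i) := by
  intro i
  induction i with
  | zero => intro X r _ _ _ h; simpa using h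
  | succ i ih =>
    intro X r hX hr hk h
    have hk' : 2 * 2 ^ (i + 1) < k := by rwa [← pow_succ']
    rw [pow_succ' 2 (i + 1)] at h
    have h1 := has_double Nat.one_le_two_pow hk' hX hr h
    have hlog : 0 < Real.log 2 := Real.log_pos one_lt_two
    have h2 := ih _ (r + 1) (by positivity) (by omega) (by omega) h1
    have e : X * ∏ t ∈ range (i + 1), (2 ^ (t + 2) * Real.log 2)
        = 2 * (((2 ^ (i + 1) : ℕ) : ℝ) * Real.log 2) * X
          * ∏ t ∈ range i, (2 ^ (t + 2) * Real.log 2) := by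
      rw [Finset.prod_range_succ]
      push_cast
      ring
    rw [e, show r + (i + 1) = r + 1 + i by omega]
    exact h2

/-- From the degree one sets to the statement on natural numbers. -/
lemma finish {k n : ℕ} {X C : ℝ} (h : Has (Free k 1) X n)
    (hC : (n : ℝ) * X ^ ((n : ℝ)⁻¹) < C) :
    ∀ᶠ N : ℕ in atTop, ∃ A : Finset ℕ, A ⊆ Finset.Icc 1 N ∧
      (N : ℝ) * Real.exp (-C * Real.log N ^ ((1 : ℝ) / n)) ≤ A.card ∧
      ∀ a d : ℕ, 0 < d → ∃ i < k, a + i * d ∉ A := by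
  filter_upwards [h C hC] with N hN
  obtain ⟨S, hS, hf, hcard⟩ := hN
  obtain ⟨A, hA, hAc, hAP⟩ := to_nat hS hf
  refine ⟨A, hA, ?_, hAP⟩
  rw [hAc, one_div]
  exact hcard

lemma gain_split (n : ℕ) {Y : ℝ} (hY : 0 ≤ Y) :
    (n : ℝ) * (gainPair * Y) ^ ((n : ℝ)⁻¹)
      = (n : ℝ) * Y ^ ((n : ℝ)⁻¹) * gainPair ^ ((1 : ℝ) / n) := by
  rw [Real.mul_rpow gainPair_pos.le hY, one_div]
  ring

lemma pairs_from_two {k m : ℕ} {P : ℝ} (hk : 3 ≤ k) (hk2 : 2 ^ (m + 1) < k) (hP : 0 < P)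
    (h : Has (Free k (2 ^ (m + 1))) (2 * P) 2) :
    Has (Free k 1) (gainPair * (2 * P * ∏ t ∈ range (m + 1), (2 ^ (t + 1) * Real.log 2)))
      (m + 3) := by
  have h1 := has_chain_two m (2 * P) 2 (by positivity) (by omega) hk2 h
  have hpos : 0 < 2 * P * ∏ t ∈ range m, (2 ^ (t + 2) * Real.log 2) :=
    mul_pos (by positivity)
      (Finset.prod_pos fun t _ => by have := Real.log_pos one_lt_two; positivity)
  have h2 := has_pairs hk hpos (by omega) h1
  have e : gainPair * (2 * P * ∏ t ∈ range (m + 1), (2 ^ (t + 1) * Real.log 2))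
      = 2 * wPair * (2 * P * ∏ t ∈ range m, (2 ^ (t + 2) * Real.log 2)) := by
    rw [Finset.prod_range_succ', wPair_eq, zero_add, pow_one]
    ring
  rw [e, show m + 3 = 2 + m + 1 by omega]
  exact h2

theorem main3_all {n k : ℕ} (hn : 3 ≤ n) (hk : 2 ^ (n - 1) < k) {C : ℝ}
    (hC : (n : ℝ) * 2 ^ (((n : ℝ) - 1) / 2) * Real.log 2 ^ (((n : ℝ) - 1) / n)
      * gainPair ^ ((1 : ℝ) / n) < C) :
    ∀ᶠ N : ℕ in atTop, ∃ A : Finset ℕ, A ⊆ Finset.Icc 1 N ∧
      (N : ℝ) * Real.exp (-C * Real.log N ^ ((1 : ℝ) / n)) ≤ A.card ∧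
      ∀ a d : ℕ, 0 < d → ∃ i < k, a + i * d ∉ A := by
  obtain ⟨m, rfl⟩ : ∃ m, n = m + 3 := ⟨n - 3, by omega⟩
  rw [show m + 3 - 1 = m + 1 + 1 by omega, pow_succ'] at hk
  have hj := Nat.one_le_two_pow (n := m + 1)
  have hl : 0 < Real.log 2 := Real.log_pos one_lt_two
  have h := pairs_from_two (by omega) (by omega)
    (show (0 : ℝ) < ((2 ^ (m + 1) : ℕ) : ℝ) * Real.log 2 by positivity) (has_top_plain hj hk)
  refine finish h (lt_of_eq_of_lt ?_ hC)
  rw [gain_split _ (mul_nonneg (by positivity) (Finset.prod_nonneg fun t _ => by positivity))]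
  have e := const_eq (n := m + 3) (by omega)
    (P := ((2 ^ (m + 1) : ℕ) : ℝ) * Real.log 2) (by positivity)
  rw [show m + 3 - 2 = m + 1 by omega] at e
  rw [e]
  have e1 : ((2 ^ (m + 1) : ℕ) : ℝ) * Real.log 2 / (Real.log 2 * 2 ^ (m + 1)) = 1 := by
    rw [div_eq_one_iff_eq (by positivity)]
    push_cast
    ring
  rw [e1, Real.one_rpow]
  ring

theorem main3_mid {n k : ℕ} (hn : 3 ≤ n) (hk : 3 * 2 ^ (n - 2) + 2 ≤ k) {C : ℝ}
    (hC : (n : ℝ) * 2 ^ (((n : ℝ) - 1) / 2) * Real.log 2 ^ (((n : ℝ) - 1) / n)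
      * gainPair ^ ((1 : ℝ) / n)
      * (Real.logb 2 ((2 ^ (n - 2) + 1).choose ((2 ^ (n - 2) + 1) / 2)) / 2 ^ (n - 2))
          ^ ((1 : ℝ) / n) < C) :
    ∀ᶠ N : ℕ in atTop, ∃ A : Finset ℕ, A ⊆ Finset.Icc 1 N ∧
      (N : ℝ) * Real.exp (-C * Real.log N ^ ((1 : ℝ) / n)) ≤ A.card ∧
      ∀ a d : ℕ, 0 < d → ∃ i < k, a + i * d ∉ A := by
  obtain ⟨m, rfl⟩ : ∃ m, n = m + 3 := ⟨n - 3, by omega⟩
  rw [show m + 3 - 2 = m + 1 by omega] at hk hC
  have hj := Nat.one_le_two_pow (n := m + 1)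
  obtain ⟨P, hP⟩ : ∃ P, P = (2 ^ (m + 1) + 1).choose ((2 ^ (m + 1) + 1) / 2) := ⟨_, rfl⟩
  have hP1 : 1 < P := by
    have h := Nat.choose_le_middle 1 (2 ^ (m + 1) + 1)
    rw [Nat.choose_one_right] at h
    omega
  have hlP : 0 < Real.log P := Real.log_pos (by exact_mod_cast hP1)
  have hb := has_base (k := k) hj hk
  rw [← hP] at hb hC
  have h := pairs_from_two (by omega) (by omega) hlP hb
  refine finish h (lt_of_eq_of_lt ?_ hC)
  rw [gain_split _ (mul_nonneg (by positivity)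
    (Finset.prod_nonneg fun t _ => by have := Real.log_pos one_lt_two; positivity))]
  have e := const_eq (n := m + 3) (by omega) (P := Real.log P) hlP.le
  rw [show m + 3 - 2 = m + 1 by omega] at e
  rw [e, Real.logb, div_div]
  ring

theorem main3_top {n k : ℕ} (hn : 3 ≤ n) (hk : 2 ^ n ≤ k) {C : ℝ}
    (hC : (n : ℝ) * 2 ^ (((n : ℝ) - 1) / 2) * Real.log 2 ^ (((n : ℝ) - 1) / n)
      * gainPair ^ ((1 : ℝ) / n)
      * (∏ t ∈ range (n - 2), Real.logb 2 (lossA (2 ^ (t + 1) - 1)) / 2 ^ (t + 1))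
          ^ ((1 : ℝ) / n) < C) :
    ∀ᶠ N : ℕ in atTop, ∃ A : Finset ℕ, A ⊆ Finset.Icc 1 N ∧
      (N : ℝ) * Real.exp (-C * Real.log N ^ ((1 : ℝ) / n)) ≤ A.card ∧
      ∀ a d : ℕ, 0 < d → ∃ i < k, a + i * d ∉ A := by
  obtain ⟨e, rfl⟩ : ∃ e, n = e + 3 := ⟨n - 3, by omega⟩
  obtain ⟨m, hm⟩ : ∃ m, 2 ^ (e + 1) = m + 1 := ⟨2 ^ (e + 1) - 1, by
    have := Nat.one_le_two_pow (n := e + 1)
    omega⟩
  have h2 : 2 ≤ 2 ^ (e + 1) := Nat.le_self_pow (by omega) 2
  rw [show e + 3 = e + 1 + 1 + 1 by omega, pow_succ', pow_succ', hm] at hk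
  have hlog : ∀ n, 0 < Real.log (lossA n) := fun n => Real.log_pos (by
    exact_mod_cast (show 1 < lossA n by have := lossA_two_le n; omega))
  have ht := has_top (k := k) (show 1 ≤ m by omega) (by omega)
  have hc := has_nest_chain (k := k) e (2 * Real.log (lossA m)) 2
    (by have := hlog m; positivity) (by omega)
    (by rw [show e + 2 = e + 1 + 1 by omega, pow_succ', hm]; omega)
    (by rwa [hm, Nat.add_sub_cancel])
  have hX : 0 < 2 * Real.log (lossA m)
      * ∏ t ∈ range e, (2 * Real.log (lossA (2 ^ (t + 1) - 1))) :=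
    mul_pos (by have := hlog m; positivity)
      (Finset.prod_pos fun t _ => by have := hlog (2 ^ (t + 1) - 1); positivity)
  have hd := has_pairs (k := k) (by omega) hX (show 1 ≤ 2 + e by omega)
    (has_mono (fun S hS => free_of_freeA (by omega) hS) hc)
  rw [show 2 + e + 1 = e + 3 by omega] at hd
  have heq : 2 * wPair * (2 * Real.log (lossA m)
      * ∏ t ∈ range e, (2 * Real.log (lossA (2 ^ (t + 1) - 1))))
      = gainPair * (2 * Real.log 2
        * ∏ t ∈ range (e + 1), (2 * Real.log (lossA (2 ^ (t + 1) - 1)))) := by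
    rw [Finset.prod_range_succ, hm, Nat.add_sub_cancel, wPair_eq]
    ring
  rw [heq] at hd
  refine finish hd (lt_of_eq_of_lt ?_ hC)
  rw [gain_split _ (mul_nonneg (by positivity)
    (Finset.prod_nonneg fun t _ => by have := hlog (2 ^ (t + 1) - 1); positivity))]
  rw [show e + 3 = e + 1 + 2 by omega,
    const_eq_prod (e + 1) (fun t => Real.log (lossA (2 ^ (t + 1) - 1))) (fun t => (hlog _).le),
    show e + 1 + 2 - 2 = e + 1 by omega]
  simp only [Real.logb, div_div, mul_comm ((2 : ℝ) ^ (_ + 1)) (Real.log 2)]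
  ring

theorem main3_lt {n : ℕ} (hn : 3 ≤ n) (K : ℝ) (hK : 0 < K) :
    K * gainPair ^ ((1 : ℝ) / n) < K ∧
    K * gainPair ^ ((1 : ℝ) / n)
        * (Real.logb 2 ((2 ^ (n - 2) + 1).choose ((2 ^ (n - 2) + 1) / 2)) / 2 ^ (n - 2))
            ^ ((1 : ℝ) / n) < K * gainPair ^ ((1 : ℝ) / n) ∧
    K * gainPair ^ ((1 : ℝ) / n)
        * (∏ t ∈ range (n - 2), Real.logb 2 (lossA (2 ^ (t + 1) - 1)) / 2 ^ (t + 1))
            ^ ((1 : ℝ) / n)
      ≤ K * gainPair ^ ((1 : ℝ) / n) * (Real.logb 2 3 / 2) ^ ((1 : ℝ) / n) := by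
  have hn0 : (0 : ℝ) < n := by exact_mod_cast (show 0 < n by omega)
  have hg := gainPair_pos
  have hpow : 0 < K * gainPair ^ ((1 : ℝ) / n) := mul_pos hK (Real.rpow_pos_of_pos hg _)
  have h := ratio_lt_one hn
  have h' := loss_prod_bound (show 1 ≤ n - 2 by omega)
  exact ⟨mul_lt_of_lt_one_right hK (Real.rpow_lt_one hg.le gainPair_lt_one (by positivity)),
    mul_lt_of_lt_one_right hpow (Real.rpow_lt_one h.1.le h.2 (by positivity)),
    mul_le_mul_of_nonneg_left (Real.rpow_le_rpow h'.1.le h'.2 (by positivity)) hpow.le⟩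

end P057
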