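import Vale.Agent.P057.Digits

/-!
The last lifting step with digits taken in pairs: a planar cell together with a small second
copy of one of its corners has density above one quarter, and a coarse convex label separates
the windows that wrap around.
-/

namespace P057

open Finset

/-- The planar cell, written with the low coordinate first. -/
def InK (H b a : ℤ) : Prop := 10 ≤ b ∧ b ≤ 2 * H - 10 ∧ 10 ≤ 2 * a + b ∧ 2 * a + b ≤ 4 * H - 10

/-- A point of the cell, with a flag telling whether it is taken in the second copy. -/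
def Adm (H G : ℤ) (c : ℤ × ℤ × ℤ) : Prop :=
  InK H c.1 c.2.1 ∧ (c.2.2 = 0 ∨ (c.2.2 = 1 ∧ 5 * H + 20 + G ≤ 2 * (c.1 + c.2.1)))

/-- The convex label. -/
def lab (H b a : ℤ) : ℤ := max 0 (2 * (b + a) - 5 * H - 20)

lemma block_cases {H G : ℤ} (hH : 100 ≤ H) (hG : 0 ≤ G) {x y z : ℤ × ℤ × ℤ}
    (hx : Adm H G x) (hy : Adm H G y) (hz : Adm H G z) {i j : ℤ}
    (hi : |x.1 + z.1 - 2 * y.1 - 2 * H * i| ≤ 4)
    (hj : |x.2.1 + z.2.1 - 2 * y.2.1 - 2 * H * j| ≤ 4)
    (hip : 2 ∣ i + x.2.2 + z.2.2) (hjp : 2 ∣ j + x.2.2 + z.2.2) :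
    (i = 0 ∧ j = 0) ∨ (2 * (y.1 + y.2.1) ≤ 5 * H + 20 ∧
      G ≤ lab H x.1 x.2.1 + lab H z.1 z.2.1) := by
  obtain ⟨⟨hx1, hx2, hx3, hx4⟩, hxe⟩ := hx
  obtain ⟨⟨hy1, hy2, hy3, hy4⟩, -⟩ := hy
  obtain ⟨⟨hz1, hz2, hz3, hz4⟩, hze⟩ := hz
  rw [abs_le] at hi hj
  have h1 : i ≤ 1 := by by_contra hc; nlinarith
  have h2 : -1 ≤ i := by by_contra hc; nlinarith
  have h3 : 2 * j + i ≤ 3 := by by_contra hc; nlinarith
  have h4 : -3 ≤ 2 * j + i := by by_contra hc; nlinarith
  have hl1 : ∀ b a, 0 ≤ lab H b a := fun b a => le_max_left _ _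
  have hl2 : ∀ b a, 2 * (b + a) - 5 * H - 20 ≤ lab H b a := fun b a => le_max_right _ _
  rcases eq_or_ne i 0 with h0 | h0
  · refine Or.inl ⟨h0, ?_⟩
    subst h0
    rcases hxe with he | ⟨he, -⟩ <;> rcases hze with he' | ⟨he', -⟩ <;> rw [he, he'] at hip hjp <;>
      omega
  · refine Or.inr ?_
    have hjs : j = 1 ∨ j = -1 := by
      rcases hxe with he | ⟨he, -⟩ <;> rcases hze with he' | ⟨he', -⟩ <;>
        rw [he, he'] at hip hjp <;> omega
    have his : i = 1 ∨ i = -1 := by omega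
    have hO : 5 * H + 20 + G ≤ 2 * (x.1 + x.2.1) ∨ 5 * H + 20 + G ≤ 2 * (z.1 + z.2.1) := by
      rcases hxe with he | ⟨he, hx5⟩
      · rcases hze with he' | ⟨he', hz5⟩
        · rw [he, he'] at hip; omega
        · exact Or.inr hz5
      · exact Or.inl hx5
    refine ⟨?_, ?_⟩
    · rcases his with rfl | rfl <;> rcases hjs with rfl | rfl <;> rcases hO with h5 | h5 <;> linarith
    · rcases hO with h5 | h5
      · linarith [hl1 z.1 z.2.1, hl2 x.1 x.2.1]
      · linarith [hl1 x.1 x.2.1, hl2 z.1 z.2.1]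

lemma carries {q : ℤ} (hq : 8 ≤ q) : ∀ (D : ℕ) (wb wa : ℕ → ℤ) (c : ℤ),
    (∀ l, l < D → |wb l| ≤ 3 * q ∧ |wa l| ≤ 3 * q) → |c| ≤ 4 →
    (q * q) ^ D ∣ c + ∑ l ∈ range D, (wb l + q * wa l) * (q * q) ^ l →
    ∀ l, l < D → ∃ c0 c1 c2, |c0| ≤ 4 ∧ |c1| ≤ 4 ∧ wb l + c0 = q * c1 ∧ wa l + c1 = q * c2 := by
  intro D
  induction D with
  | zero => intro _ _ _ _ _ _ l hl; omega
  | succ D ih =>
    intro wb wa c hw hc hd l hl
    rw [Finset.sum_range_succ'] at hd
    have e : ∑ t ∈ range D, (wb (t + 1) + q * wa (t + 1)) * (q * q) ^ (t + 1)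
        = q * q * ∑ t ∈ range D, (wb (t + 1) + q * wa (t + 1)) * (q * q) ^ t := by
      rw [Finset.mul_sum]
      exact Finset.sum_congr rfl fun t _ => by ring
    rw [e, pow_zero, mul_one] at hd
    obtain ⟨m, hm⟩ := hd
    obtain ⟨hb, ha⟩ := hw 0 (by omega)
    set S := ∑ t ∈ range D, (wb (t + 1) + q * wa (t + 1)) * (q * q) ^ t with hS
    obtain ⟨c1, hc1⟩ : ∃ c1, c1 = q * ((q * q) ^ D * m) - q * S - wa 0 := ⟨_, rfl⟩
    have e1 : wb 0 + c = q * c1 := by
      rw [hc1]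
      rw [pow_succ] at hm
      linear_combination hm
    obtain ⟨c2, hc2⟩ : ∃ c2, c2 = (q * q) ^ D * m - S := ⟨_, rfl⟩
    have e2 : wa 0 + c1 = q * c2 := by rw [hc1, hc2]; ring
    rw [abs_le] at hb ha hc
    have b1 : |c1| ≤ 4 := by
      rw [abs_le]
      constructor
      · by_contra hh; nlinarith
      · by_contra hh; nlinarith
    rcases l with _ | l
    · exact ⟨c, c1, c2, abs_le.2 hc, b1, e1, e2⟩
    · rw [abs_le] at b1
      have b2 : |c2| ≤ 4 := by
        rw [abs_le]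
        constructor
        · by_contra hh; nlinarith
        · by_contra hh; nlinarith
      exact ih (fun t => wb (t + 1)) (fun t => wa (t + 1)) c2 (fun t ht => hw (t + 1) (by omega)) b2
        ⟨m, by rw [hc2]; ring⟩ l (by omega)

lemma pair_zero {q : ℤ} (hq : 0 < q) : ∀ (D : ℕ) (zb za : ℕ → ℤ),
    (∀ l, l < D → |zb l| < q ∧ (zb l = 0 → |za l| < q)) →
    (q * q) ^ D ∣ ∑ l ∈ range D, (zb l + q * za l) * (q * q) ^ l →
    ∀ l, l < D → zb l = 0 ∧ za l = 0 := by
  intro D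
  induction D with
  | zero => intro _ _ _ _ l hl; omega
  | succ D ih =>
    intro zb za hz hd l hl
    rw [Finset.sum_range_succ'] at hd
    have e : ∑ t ∈ range D, (zb (t + 1) + q * za (t + 1)) * (q * q) ^ (t + 1)
        = q * q * ∑ t ∈ range D, (zb (t + 1) + q * za (t + 1)) * (q * q) ^ t := by
      rw [Finset.mul_sum]
      exact Finset.sum_congr rfl fun t _ => by ring
    rw [e, pow_zero, mul_one] at hd
    set S := ∑ t ∈ range D, (zb (t + 1) + q * za (t + 1)) * (q * q) ^ t with hS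
    obtain ⟨m, hm⟩ := hd
    obtain ⟨hb, ha⟩ := hz 0 (by omega)
    rw [pow_succ] at hm
    have h0 : zb 0 = 0 := Int.eq_zero_of_abs_lt_dvd
      ⟨q * ((q * q) ^ D * m) - q * S - za 0, by linear_combination hm⟩ hb
    have h1 : za 0 = 0 := Int.eq_zero_of_abs_lt_dvd
      ⟨(q * q) ^ D * m - S, mul_left_cancel₀ hq.ne' (by linear_combination hm - h0)⟩ (ha h0)
    rcases l with _ | l
    · exact ⟨h0, h1⟩
    · refine ih (fun t => zb (t + 1)) (fun t => za (t + 1)) (fun t ht => hz (t + 1) (by omega))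
        ?_ l (by omega)
      refine ⟨m, mul_left_cancel₀ (mul_ne_zero hq.ne' hq.ne') ?_⟩
      rw [h0, h1, mul_zero, add_zero, add_zero] at hm
      linear_combination hm

/-- The previous flag. -/
def pre (e : ℕ → ℤ) (l : ℕ) : ℤ := if l = 0 then 0 else e (l - 1)

lemma double_identity (H : ℤ) (pb pa e : ℕ → ℤ) (D : ℕ) :
    2 * ∑ l ∈ range D, (pb l + 2 * H * e l + 4 * H * (pa l + 2 * H * e l)) * (4 * H * (4 * H)) ^ l
      = (∑ l ∈ range D, (2 * pb l + pre e l + 4 * H * (2 * pa l + e l)) * (4 * H * (4 * H)) ^ l)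
        + pre e D * (4 * H * (4 * H)) ^ D := by
  induction D with
  | zero => simp [pre]
  | succ D ih =>
    rw [Finset.sum_range_succ, Finset.sum_range_succ, mul_add, ih]
    have : pre e (D + 1) = e D := by simp [pre]
    rw [this, pow_succ]
    ring

/-- Coordinate of block `l` of a digit datum, zero outside the range. -/
def cell {D : ℕ} (f : Fin D → ℤ × ℤ × ℤ) (l : ℕ) : ℤ × ℤ × ℤ := if h : l < D then f ⟨l, h⟩ else 0

lemma cell_adm {D : ℕ} {H G : ℤ} {f : Fin D → ℤ × ℤ × ℤ} (hf : ∀ l, Adm H G (f l)) {l : ℕ}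
    (hl : l < D) : Adm H G (cell f l) := by
  simp only [cell, dif_pos hl]
  exact hf _

lemma adm_flag {H G : ℤ} {c : ℤ × ℤ × ℤ} (h : Adm H G c) : 0 ≤ c.2.2 ∧ c.2.2 ≤ 1 := by
  rcases h.2 with h | ⟨h, -⟩ <;> omega

lemma pre_flag {D : ℕ} {H G : ℤ} {f : Fin D → ℤ × ℤ × ℤ} (hf : ∀ l, Adm H G (f l)) {l : ℕ}
    (hl : l ≤ D) : 0 ≤ pre (fun t => (cell f t).2.2) l ∧ pre (fun t => (cell f t).2.2) l ≤ 1 := by
  unfold pre
  split
  · omega
  · exact adm_flag (cell_adm hf (by omega))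

/-- The residue carried by a digit datum. -/
def resid (H : ℤ) {D : ℕ} (f : Fin D → ℤ × ℤ × ℤ) : ℤ :=
  ∑ l ∈ range D, ((cell f l).1 + 2 * H * (cell f l).2.2
    + 4 * H * ((cell f l).2.1 + 2 * H * (cell f l).2.2)) * (4 * H * (4 * H)) ^ l

/-- The low folded digit. -/
def ub {D : ℕ} (f : Fin D → ℤ × ℤ × ℤ) (l : ℕ) : ℤ :=
  2 * (cell f l).1 + pre (fun t => (cell f t).2.2) l

/-- The high folded digit. -/
def ua {D : ℕ} (f : Fin D → ℤ × ℤ × ℤ) (l : ℕ) : ℤ := 2 * (cell f l).2.1 + (cell f l).2.2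

lemma resid_double (H : ℤ) {D : ℕ} (f : Fin D → ℤ × ℤ × ℤ) :
    2 * resid H f = (∑ l ∈ range D, (ub f l + 4 * H * ua f l) * (4 * H * (4 * H)) ^ l)
        + pre (fun t => (cell f t).2.2) D * (4 * H * (4 * H)) ^ D :=
  double_identity H (fun l => (cell f l).1) (fun l => (cell f l).2.1) (fun l => (cell f l).2.2) D

lemma resid_inj {D : ℕ} {H G : ℤ} (hH : 100 ≤ H) {f g : Fin D → ℤ × ℤ × ℤ}
    (hf : ∀ l, Adm H G (f l)) (hg : ∀ l, Adm H G (g l))
    (hd : (4 * H * (4 * H)) ^ D ∣ resid H f - resid H g) : f = g := by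
  have h2 : (4 * H * (4 * H)) ^ D ∣
      ∑ l ∈ range D, ((ub f l - ub g l) + 4 * H * (ua f l - ua g l)) * (4 * H * (4 * H)) ^ l := by
    obtain ⟨m, hm⟩ := hd
    refine ⟨2 * m - pre (fun t => (cell f t).2.2) D + pre (fun t => (cell g t).2.2) D, ?_⟩
    have e : ∑ l ∈ range D, ((ub f l - ub g l) + 4 * H * (ua f l - ua g l)) * (4 * H * (4 * H)) ^ l
        = (∑ l ∈ range D, (ub f l + 4 * H * ua f l) * (4 * H * (4 * H)) ^ l)
          - ∑ l ∈ range D, (ub g l + 4 * H * ua g l) * (4 * H * (4 * H)) ^ l := by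
      rw [← Finset.sum_sub_distrib]
      exact Finset.sum_congr rfl fun l _ => by ring
    rw [e]
    linear_combination 2 * hm - resid_double H f + resid_double H g
  have hz := pair_zero (show (0 : ℤ) < 4 * H by omega) D (fun l => ub f l - ub g l)
    (fun l => ua f l - ua g l) (fun l hl => by
      obtain ⟨⟨f1, f2, f3, f4⟩, -⟩ := cell_adm hf hl
      obtain ⟨⟨g1, g2, g3, g4⟩, -⟩ := cell_adm hg hl
      have := adm_flag (cell_adm hf hl)
      have := adm_flag (cell_adm hg hl)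
      have := pre_flag hf hl.le
      have := pre_flag hg hl.le
      simp only [ub, ua, abs_lt]
      refine ⟨by omega, fun h0 => by omega⟩) h2
  funext l
  have hl := hz l l.2
  obtain ⟨hb, ha⟩ := hl
  have := adm_flag (hf l)
  have := adm_flag (hg l)
  have := pre_flag hf l.2.le
  have := pre_flag hg l.2.le
  have c1 : cell f (l : ℕ) = f l := by simp [cell]
  have c2 : cell g (l : ℕ) = g l := by simp [cell]
  simp only [ub, ua, c1, c2] at hb ha
  refine Prod.ext ?_ (Prod.ext ?_ ?_) <;> omega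

/-- The square sum of folded digits. -/
def sq2 {D : ℕ} (f : Fin D → ℤ × ℤ × ℤ) : ℤ := ∑ l ∈ range D, (ub f l ^ 2 + ua f l ^ 2)

/-- The coarse label sum. -/
def lab2 (H G : ℤ) {D : ℕ} (f : Fin D → ℤ × ℤ × ℤ) : ℤ :=
  ∑ l ∈ range D, lab H (cell f l).1 (cell f l).2.1 * (20 * D) / G

lemma sq2_bound {D : ℕ} {H G : ℤ} (hH : 100 ≤ H) {f : Fin D → ℤ × ℤ × ℤ}
    (hf : ∀ l, Adm H G (f l)) : 0 ≤ sq2 f ∧ sq2 f ≤ D * (8 * (4 * H) ^ 2) := by
  refine ⟨Finset.sum_nonneg fun l _ => by positivity, ?_⟩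
  refine le_trans (Finset.sum_le_card_nsmul _ _ (8 * (4 * H) ^ 2) fun l hl => ?_) (le_of_eq (by simp))
  have hl' := Finset.mem_range.1 hl
  obtain ⟨⟨f1, f2, f3, f4⟩, -⟩ := cell_adm hf hl'
  have := adm_flag (cell_adm hf hl')
  have := pre_flag hf hl'.le
  have b1 : |ub f l| ≤ 2 * (4 * H) := by simp only [ub, abs_le]; omega
  have b2 : |ua f l| ≤ 2 * (4 * H) := by simp only [ua, abs_le]; omega
  have e1 := pow_le_pow_left₀ (abs_nonneg _) b1 2
  have e2 := pow_le_pow_left₀ (abs_nonneg _) b2 2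
  rw [sq_abs] at e1 e2
  linarith

lemma lab2_bound {D : ℕ} {H G : ℤ} (hG : 0 < G) {f : Fin D → ℤ × ℤ × ℤ}
    (hf : ∀ l, Adm H G (f l)) : 0 ≤ lab2 H G f ∧ lab2 H G f ≤ D * (120 * D * (H / G + 1)) := by
  refine ⟨Finset.sum_nonneg fun l _ =>
    Int.ediv_nonneg (mul_nonneg (le_max_left _ _) (by positivity)) hG.le, ?_⟩
  refine le_trans (Finset.sum_le_card_nsmul _ _ (120 * D * (H / G + 1)) fun l hl => ?_)
    (le_of_eq (by simp))
  obtain ⟨⟨f1, f2, f3, f4⟩, -⟩ := cell_adm hf (Finset.mem_range.1 hl)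
  have hlab : lab H (cell f l).1 (cell f l).2.1 ≤ 6 * H := by
    unfold lab
    exact max_le (by omega) (by omega)
  have hH : H < G * (H / G + 1) := by
    have := Int.lt_ediv_add_one_mul_self H hG
    linarith
  refine Int.ediv_le_of_le_mul hG ?_
  have hD : (0 : ℤ) ≤ D := Int.natCast_nonneg D
  nlinarith

/-- Selected sets for the paired step. -/
def Sel2 (H G : ℤ) (D : ℕ) (γ δ ω : ℤ) (R S : Finset ℤ) : Prop :=
  ∀ t ∈ S, ∃ f : Fin D → ℤ × ℤ × ℤ, (∀ l, Adm H G (f l)) ∧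
    (4 * H * (4 * H)) ^ D ∣ resid H f - (t + γ) ∧ sq2 f - δ ∈ R ∧ lab2 H G f = ω

/-- A wrapping block is impossible when the coarse label sums agree. -/
lemma label_contra {G : ℤ} {D : ℕ} (hG : 320 * (D : ℤ) + 1 ≤ G)
    (X Y Z : ℕ → ℤ) (hsum : ∑ l ∈ range D,
      (X l * (20 * D) / G + Z l * (20 * D) / G - 2 * (Y l * (20 * D) / G)) = 0)
    (hlow : ∀ l, l < D → -16 ≤ X l + Z l - 2 * Y l) {l : ℕ} (hl : l < D) (hY : Y l = 0)
    (hbig : G ≤ X l + Z l) : False := by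
  have hG0 : 0 < G := by omega
  have hD : (0 : ℤ) ≤ 20 * D := by omega
  let L : ℕ → ℤ := fun t => X t * (20 * D) / G + Z t * (20 * D) / G - 2 * (Y t * (20 * D) / G)
  have hLlow : ∀ t, t < D → -3 ≤ L t := by
    intro t ht
    have a1 := Int.lt_ediv_add_one_mul_self (X t * (20 * D)) hG0
    have a2 := Int.lt_ediv_add_one_mul_self (Z t * (20 * D)) hG0
    have a3 := Int.ediv_mul_le (Y t * (20 * D)) hG0.ne'
    have key := mul_le_mul_of_nonneg_right (hlow t ht) hD
    by_contra hh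
    have h4 : L t + 4 ≤ 0 := by omega
    have h5 := mul_le_mul_of_nonneg_right h4 hG0.le
    simp only [L] at h5
    linarith
  have a1 := Int.lt_ediv_add_one_mul_self (X l * (20 * D)) hG0
  have a2 := Int.lt_ediv_add_one_mul_self (Z l * (20 * D)) hG0
  have hLbig : 20 * (D : ℤ) - 2 < L l := by
    simp only [L, hY, zero_mul, Int.zero_ediv, mul_zero, sub_zero]
    by_contra hh
    have hh' := mul_le_mul_of_nonneg_right (not_lt.1 hh) hG0.le
    have := mul_le_mul_of_nonneg_right hbig hD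
    linarith
  have h1 : L l + ∑ _t ∈ (range D).erase l, (-3 : ℤ) ≤ ∑ t ∈ range D, L t := by
    rw [← Finset.add_sum_erase _ _ (Finset.mem_range.2 hl)]
    gcongr with t ht
    exact hLlow t (Finset.mem_range.1 (Finset.mem_of_mem_erase ht))
  rw [show ∑ t ∈ range D, L t = 0 from hsum, Finset.sum_const,
    Finset.card_erase_of_mem (Finset.mem_range.2 hl), Finset.card_range, nsmul_eq_mul,
    Nat.cast_sub (by omega)] at h1
  push_cast at h1
  omega

/-- In a window of three selected residues in progression no block wraps. -/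
lemma triple_good {H G : ℤ} {D : ℕ} (hH : 100 ≤ H) (hG : 320 * (D : ℤ) + 1 ≤ G)
    (f g h : Fin D → ℤ × ℤ × ℤ) (hf : ∀ l, Adm H G (f l)) (hg : ∀ l, Adm H G (g l))
    (hh : ∀ l, Adm H G (h l))
    (hres : (4 * H * (4 * H)) ^ D ∣ resid H f + resid H h - 2 * resid H g)
    (hlab : lab2 H G f + lab2 H G h - 2 * lab2 H G g = 0) : ∀ l, l < D →
      |(cell f l).1 + (cell h l).1 - 2 * (cell g l).1| ≤ 4 ∧
      |(cell f l).2.1 + (cell h l).2.1 - 2 * (cell g l).2.1| ≤ 4 := by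
  let E : ℕ → ℤ := fun l => (cell f l).2.2 + (cell h l).2.2 - 2 * (cell g l).2.2
  let wb : ℕ → ℤ := fun l => (cell f l).1 + (cell h l).1 - 2 * (cell g l).1 + 2 * H * E l
  let wa : ℕ → ℤ := fun l => (cell f l).2.1 + (cell h l).2.1 - 2 * (cell g l).2.1 + 2 * H * E l
  have hsum : ∑ l ∈ range D, (wb l + 4 * H * wa l) * (4 * H * (4 * H)) ^ l
      = resid H f + resid H h - 2 * resid H g := by
    simp only [resid, wb, wa, E]
    rw [Finset.mul_sum, ← Finset.sum_add_distrib, ← Finset.sum_sub_distrib]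
    exact Finset.sum_congr rfl fun l _ => by ring
  have hw : ∀ l, l < D → |wb l| ≤ 3 * (4 * H) ∧ |wa l| ≤ 3 * (4 * H) := by
    intro l hl
    have := adm_flag (cell_adm hf hl)
    have := adm_flag (cell_adm hg hl)
    have := adm_flag (cell_adm hh hl)
    obtain ⟨⟨x1, x2, x3, x4⟩, -⟩ := cell_adm hf hl
    obtain ⟨⟨y1, y2, y3, y4⟩, -⟩ := cell_adm hg hl
    obtain ⟨⟨z1, z2, z3, z4⟩, -⟩ := cell_adm hh hl
    have hE1 : -2 ≤ E l := by simp only [E]; omega
    have hE2 : E l ≤ 2 := by simp only [E]; omega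
    simp only [wb, wa, abs_le]
    refine ⟨⟨?_, ?_⟩, ?_, ?_⟩ <;> nlinarith
  have hcar := carries (show (8 : ℤ) ≤ 4 * H by omega) D wb wa 0 hw (by norm_num)
    (by rw [zero_add, hsum]; exact hres)
  have hG0 : 0 ≤ G := by omega
  have hblock : ∀ l, l < D →
      (|(cell f l).1 + (cell h l).1 - 2 * (cell g l).1| ≤ 4 ∧
        |(cell f l).2.1 + (cell h l).2.1 - 2 * (cell g l).2.1| ≤ 4) ∨
      (2 * ((cell g l).1 + (cell g l).2.1) ≤ 5 * H + 20 ∧
        G ≤ lab H (cell f l).1 (cell f l).2.1 + lab H (cell h l).1 (cell h l).2.1) := by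
    intro l hl
    obtain ⟨c0, c1, c2, hc0, hc1, e1, e2⟩ := hcar l hl
    simp only [wb, wa] at e1 e2
    rw [abs_le] at hc0 hc1
    have q1 : (cell f l).1 + (cell h l).1 - 2 * (cell g l).1 - 2 * H * (2 * c1 - E l) = -c0 := by
      linear_combination e1
    have q2 : (cell f l).2.1 + (cell h l).2.1 - 2 * (cell g l).2.1 - 2 * H * (2 * c2 - E l)
        = -c1 := by
      linear_combination e2
    rcases block_cases (i := 2 * c1 - E l) (j := 2 * c2 - E l) hH hG0 (cell_adm hf hl)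
      (cell_adm hg hl) (cell_adm hh hl)
      (by rw [q1, abs_neg, abs_le]; exact hc0) (by rw [q2, abs_neg, abs_le]; exact hc1)
      (by simp only [E]; omega) (by simp only [E]; omega) with ⟨h1, h2⟩ | hbad
    · left
      rw [h1, mul_zero, sub_zero] at q1
      rw [h2, mul_zero, sub_zero] at q2
      rw [abs_le, abs_le]
      omega
    · exact Or.inr hbad
  intro l hl
  rcases hblock l hl with hgood | ⟨hy, hG'⟩
  · exact hgood
  exfalso
  refine label_contra hG (fun t => lab H (cell f t).1 (cell f t).2.1)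
    (fun t => lab H (cell g t).1 (cell g t).2.1) (fun t => lab H (cell h t).1 (cell h t).2.1)
    ?_ (fun t ht => ?_) hl (by simp only [lab]; omega) hG'
  · simp only [Finset.sum_sub_distrib, Finset.sum_add_distrib, ← Finset.mul_sum]
    exact hlab
  · rcases hblock t ht with ⟨hb, ha⟩ | ⟨hy', hG''⟩
    · rw [abs_le] at hb ha
      simp only [lab]
      omega
    · simp only [lab] at hG'' ⊢
      omega

/-- Second differences of the folded digits vanish. -/
lemma triple_zero {H G : ℤ} {D : ℕ} (hH : 100 ≤ H) (hG : 320 * (D : ℤ) + 1 ≤ G)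
    (f g h : Fin D → ℤ × ℤ × ℤ) (hf : ∀ l, Adm H G (f l)) (hg : ∀ l, Adm H G (g l))
    (hh : ∀ l, Adm H G (h l))
    (hres : (4 * H * (4 * H)) ^ D ∣ resid H f + resid H h - 2 * resid H g)
    (hlab : lab2 H G f + lab2 H G h - 2 * lab2 H G g = 0) : ∀ l, l < D →
      ub f l + ub h l - 2 * ub g l = 0 ∧ ua f l + ua h l - 2 * ua g l = 0 := by
  have hgood := triple_good hH hG f g h hf hg hh hres hlab
  refine pair_zero (show (0 : ℤ) < 4 * H by omega) D
    (fun l => ub f l + ub h l - 2 * ub g l) (fun l => ua f l + ua h l - 2 * ua g l)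
    (fun l hl => ?_) ?_
  · obtain ⟨hb, ha⟩ := hgood l hl
    have := adm_flag (cell_adm hf hl)
    have := adm_flag (cell_adm hg hl)
    have := adm_flag (cell_adm hh hl)
    have := pre_flag hf hl.le
    have := pre_flag hg hl.le
    have := pre_flag hh hl.le
    rw [abs_le] at hb ha
    simp only [ub, ua, abs_lt]
    exact ⟨by omega, fun _ => by omega⟩
  · obtain ⟨m, hm⟩ := hres
    refine ⟨2 * m - (pre (fun t => (cell f t).2.2) D + pre (fun t => (cell h t).2.2) D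
      - 2 * pre (fun t => (cell g t).2.2) D), ?_⟩
    have e : ∑ l ∈ range D, ((ub f l + ub h l - 2 * ub g l)
          + 4 * H * (ua f l + ua h l - 2 * ua g l)) * (4 * H * (4 * H)) ^ l
        = (∑ l ∈ range D, (ub f l + 4 * H * ua f l) * (4 * H * (4 * H)) ^ l)
          + (∑ l ∈ range D, (ub h l + 4 * H * ua h l) * (4 * H * (4 * H)) ^ l)
          - 2 * ∑ l ∈ range D, (ub g l + 4 * H * ua g l) * (4 * H * (4 * H)) ^ l := by
      rw [Finset.mul_sum, ← Finset.sum_add_distrib, ← Finset.sum_sub_distrib]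
      exact Finset.sum_congr rfl fun l _ => by ring
    rw [e]
    linear_combination 2 * hm - resid_double H f - resid_double H h + 2 * resid_double H g

/-- Equal folded digits at two consecutive places force equal residues up to a factor two. -/
lemma double_dvd (H : ℤ) {D : ℕ} (f g : Fin D → ℤ × ℤ × ℤ)
    (he : ∀ l, l < D → ub g l = ub f l ∧ ua g l = ua f l) {a b : ℤ}
    (ha : (4 * H * (4 * H)) ^ D ∣ resid H f - a) (hb : (4 * H * (4 * H)) ^ D ∣ resid H g - b) :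
    (4 * H * (4 * H)) ^ D ∣ 2 * (b - a) := by
  obtain ⟨m, hm⟩ := dvd_sub hb ha
  have e : ∑ l ∈ range D, (ub g l + 4 * H * ua g l) * (4 * H * (4 * H)) ^ l
      = ∑ l ∈ range D, (ub f l + 4 * H * ua f l) * (4 * H * (4 * H)) ^ l :=
    Finset.sum_congr rfl fun l hl => by
      rw [(he l (Finset.mem_range.1 hl)).1, (he l (Finset.mem_range.1 hl)).2]
  refine ⟨pre (fun t => (cell g t).2.2) D - pre (fun t => (cell f t).2.2) D - 2 * m, ?_⟩
  linear_combination (-2) * hm + resid_double H g - resid_double H f + e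

/-- The lifting step from degree two to progressions, with paired digits. -/
lemma free_pairs {k D T : ℕ} {H G : ℤ} (hk : 3 ≤ k) (hH : 100 ≤ H) (hG : 320 * (D : ℤ) + 1 ≤ G)
    (hQ : 4 * (T : ℤ) ≤ (4 * H * (4 * H)) ^ D) {γ δ ω : ℤ} {R S : Finset ℤ}
    (hR : Free k 2 R) (hST : S ⊆ Ico (0 : ℤ) T) (hS : Sel2 H G D γ δ ω R S) : Free k 1 S := by
  classical
  intro s hs hlin
  choose f hfA hfd hfR hfL using fun i : {i : ℕ // i < k} => hS (s i) (hs i i.2)
  let F : ℕ → Fin D → ℤ × ℤ × ℤ := fun i => if h : i < k then f ⟨i, h⟩ else fun _ => 0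
  have hA : ∀ i, i < k → ∀ l, Adm H G (F i l) := fun i hi => by
    simp only [F, dif_pos hi]; exact hfA _
  have hd : ∀ i, i < k → (4 * H * (4 * H)) ^ D ∣ resid H (F i) - (s i + γ) := fun i hi => by
    simp only [F, dif_pos hi]; exact hfd ⟨i, hi⟩
  have hFR : ∀ i, i < k → sq2 (F i) - δ ∈ R := fun i hi => by
    simp only [F, dif_pos hi]; exact hfR _
  have hL : ∀ i, i < k → lab2 H G (F i) = ω := fun i hi => by
    simp only [F, dif_pos hi]; exact hfL _
  have hmain : ∀ i, i + 2 < k → ∀ l, l < D →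
      ub (F i) l + ub (F (i + 2)) l - 2 * ub (F (i + 1)) l = 0 ∧
      ua (F i) l + ua (F (i + 2)) l - 2 * ua (F (i + 1)) l = 0 := by
    intro i hi
    have hlin' : s i + s (i + 2) - 2 * s (i + 1) = 0 := by
      have h0 := hlin i (by omega)
      simp only [dif_succ, Function.iterate_zero_apply] at h0
      linarith
    have h1 := dvd_sub (dvd_add (hd i (by omega)) (hd (i + 2) hi))
      (dvd_mul_of_dvd_right (hd (i + 1) (by omega)) 2)
    have e : resid H (F i) - (s i + γ) + (resid H (F (i + 2)) - (s (i + 2) + γ))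
        - 2 * (resid H (F (i + 1)) - (s (i + 1) + γ))
        = resid H (F i) + resid H (F (i + 2)) - 2 * resid H (F (i + 1)) := by linarith
    rw [e] at h1
    exact triple_zero hH hG (F i) (F (i + 1)) (F (i + 2)) (hA i (by omega)) (hA _ (by omega))
      (hA _ hi) h1 (by rw [hL i (by omega), hL (i + 1) (by omega), hL (i + 2) hi]; ring)
  let y1 : Fin D × Bool → ℕ → ℤ := fun l i => if l.2 then ua (F i) l.1 else ub (F i) l.1
  have hy1 : ∀ l ∈ (Finset.univ : Finset (Fin D × Bool)), ∀ i, i + 1 + 1 < k →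
      dif^[1 + 1] (y1 l) i = 0 := by
    intro l _ i hi
    have := hmain i (by omega) l.1 l.1.2
    simp only [dif_succ, Function.iterate_zero_apply, y1]
    rw [show i + 1 + 1 = i + 2 by omega]
    split_ifs <;> linarith [this.1, this.2]
  have hss := dif_sumsq (Finset.univ : Finset (Fin D × Bool)) (d := 1) (show 2 * 1 < k by omega)
    y1 hy1
  have hsq : ∀ i, (∑ l : Fin D × Bool, y1 l i ^ 2) = sq2 (F i) := by
    intro i
    rw [Fintype.sum_prod_type, sq2, ← Fin.sum_univ_eq_sum_range]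
    refine Finset.sum_congr rfl fun l _ => ?_
    simp only [Fintype.sum_bool, y1]
    simp
    ring
  let fR : ℕ → ℤ := fun t => 1 * (∑ l, y1 l t ^ 2) + (-1) * (fun _ => δ) t
  have hfR' : ∀ n a, 1 ≤ n → dif^[n] fR a = dif^[n] (fun t => ∑ l, y1 l t ^ 2) a := by
    intro n a hn
    simp only [fR]
    rw [dif_lin, dif_const hn]
    ring
  have htop := hR fR (fun i hi => by
      have := hFR i hi
      simpa [fR, hsq, sub_eq_add_neg] using this)
    (fun i hi => by rw [hfR' _ _ (by omega)]; exact hss.1 i hi)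
  rw [hfR' _ _ (by omega)] at htop
  rw [hss.2] at htop
  have hz : ∀ l, dif^[1] (y1 l) 0 = 0 := by
    intro l
    have h1 := (Finset.sum_eq_zero_iff_of_nonneg (fun i _ => sq_nonneg (dif^[1] (y1 i) 0))).1
      ((mul_eq_zero.1 htop).resolve_left (by decide)) l (Finset.mem_univ l)
    simpa using h1
  have he : ∀ l, l < D → ub (F 1) l = ub (F 0) l ∧ ua (F 1) l = ua (F 0) l := by
    intro l hl
    have h1 := hz (⟨l, hl⟩, true)
    have h2 := hz (⟨l, hl⟩, false)
    simp only [Function.iterate_one, dif_apply, y1, zero_add, if_true, Bool.false_eq_true,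
      if_false, sub_eq_zero] at h1 h2
    exact ⟨h2, h1⟩
  have hdiv : (4 * H * (4 * H)) ^ D ∣ 2 * dif^[1] s 0 := by
    have h1 := double_dvd H (F 0) (F 1) he (hd 0 (by omega)) (hd 1 (by omega))
    rw [add_sub_add_right_eq_sub] at h1
    simpa [dif_apply] using h1
  have h3 := Int.eq_zero_of_abs_lt_dvd hdiv (by
    have b0 := Finset.mem_Ico.1 (hST (hs 0 (by omega)))
    have b1 := Finset.mem_Ico.1 (hST (hs 1 (by omega)))
    simp only [Function.iterate_one, dif_apply, zero_add, abs_lt]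
    constructor <;> linarith)
  linarith

/-- Averaging with two statistics. -/
lemma exists_sel2 {α : Type*} [DecidableEq α] (A : Finset α) (Φ F V : α → ℤ) {Q : ℕ} (hQ : 0 < Q)
    (hinj : ∀ f ∈ A, ∀ g ∈ A, (Q : ℤ) ∣ Φ f - Φ g → f = g) {T T' T'' : ℕ} (hT'' : 0 < T'')
    (hF : ∀ f ∈ A, 0 ≤ F f ∧ F f < T') (hV : ∀ f ∈ A, 0 ≤ V f ∧ V f < T'') (hT' : 0 < T')
    {R : Finset ℤ} (hR : R ⊆ Ico (0 : ℤ) T') :
    ∃ γ δ ω : ℤ, ∃ S : Finset ℤ, S ⊆ Ico (0 : ℤ) T ∧
      (∀ t ∈ S, ∃ f ∈ A, (Q : ℤ) ∣ Φ f - (t + γ) ∧ F f - δ ∈ R ∧ V f = ω) ∧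
      T * A.card * R.card ≤ S.card * (Q * (2 * T') * T'') := by
  classical
  let dom : Finset (ℤ × (α × ℤ)) := Ico (0 : ℤ) T ×ˢ (A ×ˢ R)
  let φ : ℤ × (α × ℤ) → ℤ × ℤ × ℤ :=
    fun x => ((Φ x.2.1 - x.1) % (Q : ℤ), F x.2.1 - x.2.2, V x.2.1)
  let tgt : Finset (ℤ × ℤ × ℤ) :=
    Ico (0 : ℤ) Q ×ˢ (Ico (-(T' : ℤ)) T' ×ˢ Ico (0 : ℤ) T'')
  have hQ' : (0 : ℤ) < Q := by exact_mod_cast hQ
  have hmaps : ∀ x ∈ dom, φ x ∈ tgt := by
    intro x hx
    simp only [dom, mem_product] at hx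
    have hr := Finset.mem_Ico.1 (hR hx.2.2)
    have h1 := hF _ hx.2.1
    have h2 := hV _ hx.2.1
    simp only [tgt, φ, mem_product, mem_Ico]
    exact ⟨⟨Int.emod_nonneg _ hQ'.ne', Int.emod_lt_of_pos _ hQ'⟩, ⟨by omega, by omega⟩, h2⟩
  have hne : tgt.Nonempty := by
    refine ⟨(0, -(T' : ℤ), 0), ?_⟩
    simp only [tgt, mem_product, mem_Ico]
    omega
  obtain ⟨y, _, hmax⟩ := Finset.exists_max_image tgt (fun y => {x ∈ dom | φ x = y}.card) hne
  refine ⟨y.1, y.2.1, y.2.2, {x ∈ dom | φ x = y}.image Prod.fst, ?_, ?_, ?_⟩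
  · intro t ht
    simp only [mem_image, mem_filter, dom, mem_product] at ht
    obtain ⟨x, ⟨⟨hx, _⟩, _⟩, rfl⟩ := ht
    exact hx
  · intro t ht
    simp only [mem_image, mem_filter, dom, mem_product] at ht
    obtain ⟨x, ⟨⟨_, ha, hr⟩, hφ⟩, rfl⟩ := ht
    refine ⟨x.2.1, ha, ?_, ?_, ?_⟩
    · rw [← hφ]
      rw [show Φ x.2.1 - (x.1 + (φ x).1) = (Φ x.2.1 - x.1) - (Φ x.2.1 - x.1) % (Q : ℤ) by
        simp only [φ]; ring]
      exact Int.dvd_self_sub_emod
    · rw [← hφ]; simpa [φ] using hr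
    · rw [← hφ]
  · have hinjS : Set.InjOn Prod.fst (↑(dom.filter fun x => φ x = y) : Set (ℤ × (α × ℤ))) := by
      intro x hx x' hx' htt
      simp only [coe_filter, Set.mem_ofPred_eq, dom, mem_product] at hx hx'
      have he : φ x = φ x' := by rw [hx.2, hx'.2]
      simp only [φ, Prod.mk.injEq] at he
      have hd : (Q : ℤ) ∣ Φ x.2.1 - Φ x'.2.1 := by
        have := Int.emod_eq_emod_iff_emod_sub_eq_zero.1 he.1
        rw [htt] at this
        simpa using Int.dvd_of_emod_eq_zero this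
      have hf : x.2.1 = x'.2.1 := hinj _ hx.1.2.1 _ hx'.1.2.1 hd
      refine Prod.ext htt (Prod.ext hf ?_)
      have := he.2.1
      rw [hf] at this
      linarith
    rw [Finset.card_image_of_injOn hinjS]
    have h1 : dom.card = T * A.card * R.card := by simp [dom, mul_assoc]
    have h2 : tgt.card = Q * (2 * T') * T'' := by
      have e : ((T' : ℤ) - -(T' : ℤ)).toNat = 2 * T' := by omega
      simp only [tgt, card_product, Int.card_Ico, sub_zero, Int.toNat_natCast, e, mul_assoc]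
    rw [← h1, ← h2, Finset.card_eq_sum_card_fiberwise hmaps]
    refine le_trans (Finset.sum_le_card_nsmul _ _ _ hmax) ?_
    rw [smul_eq_mul, mul_comm]

/-- The admissible cells. -/
noncomputable def cells (H G : ℤ) : Finset (ℤ × ℤ × ℤ) := by
  classical
  exact (Finset.Icc (0 : ℤ) (2 * H) ×ˢ (Finset.Icc (-2 * H) (2 * H) ×ˢ Finset.Icc (0 : ℤ) 1)).filter
    (Adm H G)

lemma mem_cells {H G : ℤ} {c : ℤ × ℤ × ℤ} : c ∈ cells H G ↔ Adm H G c := by
  classical
  simp only [cells, Finset.mem_filter, Finset.mem_product, Finset.mem_Icc, and_iff_right_iff_imp]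
  intro h
  have := adm_flag h
  obtain ⟨⟨h1, h2, h3, h4⟩, -⟩ := h
  omega

lemma cells_card {H G P : ℕ} (hH : 20 ≤ H) (hP : 2 * P + 40 + G ≤ H) :
    (2 * H - 20) ^ 2 + P ^ 2 ≤ (cells (H : ℤ) (G : ℤ)).card := by
  classical
  let f1 : ℕ × ℕ → ℤ × ℤ × ℤ := fun x => (10 + x.1, x.2 - (10 + (x.1 : ℤ)) / 2 + 6, 0)
  let f2 : ℕ × ℕ → ℤ × ℤ × ℤ := fun x =>
    if x.1 + x.2 < P then (2 * (H : ℤ) - 10 - 2 * x.1, (H : ℤ) + x.1 - x.2, 1)
    else (2 * (H : ℤ) - 11 - 2 * (P - 1 - x.1 : ℤ),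
      (H : ℤ) + (P - 1 - x.1 : ℤ) - (P - 1 - x.2 : ℤ), 1)
  let A1 := range (2 * H - 20) ×ˢ range (2 * H - 20)
  let A2 := range P ×ˢ range P
  have s1 : A1.image f1 ⊆ cells (H : ℤ) (G : ℤ) := by
    intro c hc
    obtain ⟨x, hx, rfl⟩ := Finset.mem_image.1 hc
    simp only [A1, Finset.mem_product, Finset.mem_range] at hx
    rw [mem_cells]
    simp only [f1, Adm, InK]
    refine ⟨?_, Or.inl trivial⟩
    omega
  have s2 : A2.image f2 ⊆ cells (H : ℤ) (G : ℤ) := by
    intro c hc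
    obtain ⟨x, hx, rfl⟩ := Finset.mem_image.1 hc
    simp only [A2, Finset.mem_product, Finset.mem_range] at hx
    rw [mem_cells]
    simp only [f2]
    split_ifs
    · simp only [Adm, InK]
      refine ⟨?_, Or.inr ⟨trivial, ?_⟩⟩ <;> omega
    · simp only [Adm, InK]
      refine ⟨?_, Or.inr ⟨trivial, ?_⟩⟩ <;> omega
  have i1 : Set.InjOn f1 ↑A1 := by
    intro x hx y hy h
    simp only [f1, Prod.mk.injEq] at h
    refine Prod.ext ?_ ?_ <;> omega
  have i2 : Set.InjOn f2 ↑A2 := by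
    intro x hx y hy h
    simp only [A2, Finset.coe_product, Set.mem_prod, Finset.coe_range, Set.mem_Iio] at hx hy
    simp only [f2] at h
    split_ifs at h <;> simp only [Prod.mk.injEq] at h <;> refine Prod.ext ?_ ?_ <;> omega
  have hdisj : Disjoint (A1.image f1) (A2.image f2) := by
    rw [Finset.disjoint_left]
    intro c hc1 hc2
    obtain ⟨x, -, rfl⟩ := Finset.mem_image.1 hc1
    obtain ⟨y, -, hy⟩ := Finset.mem_image.1 hc2
    simp only [f1, f2] at hy
    split_ifs at hy <;> simp only [Prod.mk.injEq] at hy <;> omega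
  refine le_trans (le_of_eq ?_) (Finset.card_le_card (Finset.union_subset s1 s2))
  rw [Finset.card_union_of_disjoint hdisj, Finset.card_image_of_injOn i1,
    Finset.card_image_of_injOn i2]
  simp [A1, A2, sq]

end P057
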